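import Vale.Agent.P202.Zero.Descent.Model
import Vale.Agent.P202.NC.Multiplicity
import Vale.Agent.P202.RingSide.Reduction

/-!
# P202, equal characteristic zero: source and target data

Over an algebraically closed coefficient field, a complete local ring is finite over power series
in a strong reduction of its maximal ideal, with coordinates up to torsion; a finite free local
algebra over it has a basis adapted to the maximal ideal and a minimal reduction.
-/

noncomputable section

namespace Vale.Agent.P202.Zero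

open IsLocalRing Filter
open scoped ENNReal

universe u

variable (k : Type u) [Field k] (A : Type u) [CommRing A] [IsNoetherianRing A] [IsLocalRing A]
  [Algebra k A]

omit [IsNoetherianRing A] in
theorem bijective_residue (hres : ∀ a : A, ∃ c, a - algebraMap k A c ∈ maximalIdeal A) :
    Function.Bijective (algebraMap k (ResidueField A)) := by
  refine ⟨(algebraMap k (ResidueField A)).injective, fun q => ?_⟩
  obtain ⟨a, rfl⟩ := residue_surjective q
  obtain ⟨c, hc⟩ := hres a
  refine ⟨c, ?_⟩
  rw [IsScalarTower.algebraMap_apply k A (ResidueField A), ResidueField.algebraMap_eq, eq_comm,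
    ← sub_eq_zero, ← map_sub, residue_eq_zero_iff]
  exact hc

variable [IsAlgClosed k]

/-- The source: finite over power series, generators, strong reduction, coordinates. -/
theorem exists_source_data [IsAdicComplete (maximalIdeal A) A]
    (hres : ∀ a : A, ∃ c, a - algebraMap k A c ∈ maximalIdeal A) :
    ∃ φ : PS k (dimNat A) →+* A, (∀ c, φ (MvPowerSeries.C c) = algebraMap k A c) ∧
      letI := φ.toAlgebra
      Module.Finite (PS k (dimNat A)) A ∧
      ∃ (m : ℕ) (z : Fin (m + 1) → A) (r e : ℕ), z 0 = 1 ∧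
        Submodule.span (PS k (dimNat A)) (Set.range z) = ⊤ ∧
        genIdeal (fun i => (MvPowerSeries.X i : PS k (dimNat A))) z 0 = maximalIdeal A ∧
        genIdeal (fun i => (MvPowerSeries.X i : PS k (dimNat A))) z 0 ^ (r + 1) ≤
          varIdeal A (fun i => (MvPowerSeries.X i : PS k (dimNat A))) *
            genIdeal (fun i => (MvPowerSeries.X i : PS k (dimNat A))) z 0 ^ r ∧
        limsup (hsSeq A) atTop ≤ (e : ℝ≥0∞) ∧
        ∃ (c : PS k (dimNat A)) (Θ : A →ₗ[PS k (dimNat A)] (Fin e → PS k (dimNat A)))
          (v : Fin e → A), c ≠ 0 ∧ ∀ j, Θ (v j) = c • (Pi.single j 1 : Fin e → PS k (dimNat A)) := by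
  classical
  set d := dimNat A
  have : Infinite (ResidueField A) :=
    Infinite.of_injective _ (bijective_residue k A hres).injective
  obtain ⟨x, r, hx, hxr⟩ := exists_reduction_strong (A := A)
  have hxm : ∀ i, x i ∈ maximalIdeal A := fun i => hx (Ideal.subset_span ⟨i, rfl⟩)
  obtain ⟨φ, hC, hX, -⟩ := exists_evalHom (algebraMap k A) x hxm
  have hspan : (fun i => φ (MvPowerSeries.X i)) = x := funext hX
  have hfin : φ.Finite := finite_of_powerSeriesHom φ (fun a => by
      obtain ⟨c, hc⟩ := hres a
      exact ⟨c, by rw [hC]; exact hc⟩)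
    (fun i => by rw [hX]; exact hxm i) (r := r + 1)
    (by rw [hspan]; exact hxr.trans Ideal.mul_le_left)
  refine ⟨φ, hC, ?_⟩
  let algφ : Algebra (PS k d) A := φ.toAlgebra
  have : Module.Finite (PS k d) A := hfin
  have : IsScalarTower k (PS k d) A := IsScalarTower.of_algebraMap_eq fun c => (hC c).symm
  have : IsDomain (PS k d) := NoZeroDivisors.to_isDomain _
  refine ⟨‹_›, ?_⟩
  -- generators in the maximal ideal, and one
  obtain ⟨m, g, hg⟩ := Module.Finite.exists_fin (R := PS k d) (M := A)
  choose cg hcg using fun i => hres (g i)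
  let z : Fin (m + 1) → A := Fin.cons 1 fun i => g i - algebraMap k A (cg i)
  have hz0 : z 0 = 1 := rfl
  have hzs : ∀ i, z (Fin.succ i) = g i - algebraMap k A (cg i) := fun i => Fin.cons_succ _ _ i
  have hz : Submodule.span (PS k d) (Set.range z) = ⊤ := by
    rw [eq_top_iff, ← hg, Submodule.span_le]
    rintro _ ⟨i, rfl⟩
    have h : g i = z (Fin.succ i) + (MvPowerSeries.C (cg i) : PS k d) • z 0 := by
      rw [hzs, hz0, Algebra.smul_def, RingHom.algebraMap_toAlgebra, hC, mul_one, sub_add_cancel]
    rw [h]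
    exact add_mem (Submodule.subset_span ⟨_, rfl⟩)
      (Submodule.smul_mem _ _ (Submodule.subset_span ⟨0, rfl⟩))
  set X : Fin d → PS k d := fun i => MvPowerSeries.X i
  have hvar : varIdeal A X = Ideal.span (Set.range x) := by
    rw [varIdeal, ← hspan]
    rfl
  have hgle : genIdeal X z 0 ≤ maximalIdeal A := by
    refine sup_le (by rw [hvar]; exact hx) ?_
    rw [Ideal.span_le]
    rintro _ ⟨i, hi, rfl⟩
    obtain ⟨j, rfl⟩ := Fin.exists_succ_eq.2 hi
    rw [hzs]
    exact hcg j
  have hgen : genIdeal X z 0 = maximalIdeal A := by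
    refine le_antisymm hgle fun a ha => ?_
    obtain ⟨f, hf⟩ := (Submodule.mem_span_range_iff_exists_fun (PS k d)).1
      (hz ▸ Submodule.mem_top (x := a))
    rw [Fin.sum_univ_succ] at hf
    simp only [Algebra.smul_def, RingHom.algebraMap_toAlgebra, hz0, mul_one] at hf
    have hrest : ∑ i : Fin m, φ (f i.succ) * z i.succ ∈ genIdeal X z 0 :=
      Ideal.sum_mem _ fun i _ => Ideal.mul_mem_left _ _
        (Ideal.mem_sup_right (Ideal.subset_span ⟨i.succ, Fin.succ_ne_zero i, rfl⟩))
    have h0 : φ (f 0 - MvPowerSeries.C (MvPowerSeries.constantCoeff (f 0))) ∈ varIdeal A X := by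
      have h := Ideal.mem_map_of_mem φ (sub_C_constantCoeff_mem_span_X (f 0))
      rw [Ideal.map_span, ← Set.range_comp] at h
      exact h
    have hmem : a - algebraMap k A (MvPowerSeries.constantCoeff (f 0)) ∈ genIdeal X z 0 := by
      have h := add_mem (Ideal.mem_sup_left h0) hrest
      rw [map_sub, hC] at h
      rw [← hf, add_sub_right_comm]
      exact h
    have hc0 : MvPowerSeries.constantCoeff (f 0) = 0 := by
      by_contra hne
      have h := sub_mem ha (hgle hmem)
      rw [sub_sub_cancel] at h
      exact (mem_maximalIdeal _).1 h ((isUnit_iff_ne_zero.2 hne).map (algebraMap k A))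
    rwa [hc0, map_zero, sub_zero] at hmem
  -- coordinates
  obtain ⟨c, e, v, θ, hc, hv, hθ⟩ := exists_coords (V := PS k d) (M := A)
  let Θ : A →ₗ[PS k d] (Fin e → PS k d) := LinearMap.pi θ
  have hΘ : ∀ j, Θ (v j) = c • Pi.single j 1 := by
    intro j
    funext i
    have h0 : ∑ i, (θ i (v j) - c * (Pi.single j 1 : Fin e → PS k d) i) • v i = 0 := by
      simp only [sub_smul, Finset.sum_sub_distrib, hθ, mul_smul]
      rw [← Finset.smul_sum, Finset.sum_eq_single j]
      · simp
      · intro b _ hb; simp [hb]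
      · simp
    have h := sub_eq_zero.1 (Fintype.linearIndependent_iff.1 hv _ h0 i)
    simp only [Θ, LinearMap.pi_apply, Pi.smul_apply, smul_eq_mul, h]
  have hrank : Module.finrank (PS k d) A ≤ e := by
    refine Module.finrank_le_of_rank_le (rank_le fun s hs => ?_)
    have hli : LinearIndependent (PS k d) fun i : s => Θ (i : A) := by
      rw [Fintype.linearIndependent_iff] at hs ⊢
      intro gs hgs i
      have hzero : Θ (∑ i, gs i • (i : A)) = 0 := by simpa [map_sum] using hgs
      have hsm : c • (∑ i, gs i • (i : A)) = 0 := by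
        rw [← hθ]
        exact Finset.sum_eq_zero fun j _ => by
          rw [show θ j (∑ i, gs i • (i : A)) = 0 from congrFun hzero j, zero_smul]
      rw [Finset.smul_sum] at hsm
      have := hs (fun i => c * gs i) (by simpa only [mul_smul] using hsm) i
      exact (mul_eq_zero.1 this).resolve_left hc
    simpa using hli.fintype_card_le_finrank
  obtain ⟨e', he', hle⟩ := NC.limsup_hsSeq_le_emult hres rfl φ hfin hC
    fun i => by rw [hX]; exact hxm i
  have he : (e' : ℝ≥0∞) ≤ e := by
    have h := emult_eq_finrank_powerSeries (k := k) (d := d) (R := A)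
    rw [RingHom.algebraMap_toAlgebra, he', Nat.cast_inj] at h
    rw [h]
    exact_mod_cast hrank
  refine ⟨m, z, r, e, hz0, hz, hgen, ?_, hle.trans he, c, Θ, v, hc, hΘ⟩
  rw [hgen, hvar]
  exact hxr

/-- The target: an adapted basis, a minimal reduction and its multiplicity. -/
theorem exists_target_data [IsAdicComplete (maximalIdeal A) A]
    (hres : ∀ a : A, ∃ c, a - algebraMap k A c ∈ maximalIdeal A)
    (B : Type u) [CommRing B] [IsLocalRing B] [Algebra A B] [IsLocalHom (algebraMap A B)]
    [Module.Finite A B] [Module.Flat A B] [Algebra k B] [IsScalarTower k A B] :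
    ∃ (s : ℕ) (b : Module.Basis (Fin (s + 1)) A B) (y : Fin (dimNat A) → B) (L : ℕ),
      b 0 = 1 ∧ (∀ j, j ≠ 0 → ∃ t, b j ^ t ∈ (maximalIdeal A).map (algebraMap A B)) ∧
      (∀ l, y l ∈ (maximalIdeal A).map (algebraMap A B) ⊔ Ideal.span (b '' {0}ᶜ)) ∧
      (∀ l, y l ∈ maximalIdeal B) ∧
      (∀ a : B, ∃ c, a - algebraMap k B c ∈ maximalIdeal B) ∧
      dimNat B = dimNat A ∧ Module.Finite k (B ⧸ Ideal.span (Set.range y)) ∧
      emult k (List.ofFn y) B = L ∧ (L : ℝ≥0∞) ≤ liminf (hsSeq B) atTop := by
  classical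
  have : IsNoetherianRing B := IsNoetherianRing.of_finite A B
  have : IsAdicComplete (maximalIdeal B) B := isAdicComplete_maximalIdeal_of_finite A B
  have hd : dimNat B = dimNat A := dimNat_eq_of_finite_flat
  have hmap : (maximalIdeal A).map (algebraMap A B) ≤ maximalIdeal B := by
    rw [Ideal.map_le_iff_le_comap]
    intro a ha
    rw [Ideal.mem_comap, mem_maximalIdeal, mem_nonunits_iff]
    exact fun hu => ha ((isUnit_map_iff (algebraMap A B) a).1 hu)
  -- the residue field
  have hkA : Module.Finite k (ResidueField A) :=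
    Module.Finite.of_surjective (Algebra.linearMap k _) (bijective_residue k A hres).surjective
  have : Module.Finite (ResidueField A) (ResidueField B) := inferInstance
  have : Module.Finite k (ResidueField B) :=
    Module.Finite.trans (ResidueField A) (ResidueField B)
  have hbij := IsAlgClosed.algebraMap_bijective_of_isIntegral (k := k) (K := ResidueField B)
  have hresB : ∀ a : B, ∃ c, a - algebraMap k B c ∈ maximalIdeal B := by
    intro a
    obtain ⟨c, hc⟩ := hbij.surjective (residue B a)
    refine ⟨c, ?_⟩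
    rw [← residue_eq_zero_iff, map_sub, ← hc, IsScalarTower.algebraMap_apply k B (ResidueField B),
      ResidueField.algebraMap_eq, sub_self]
  -- a basis with one first
  have hfree : Module.Free A B := Module.free_of_flat_of_isLocalRing
  obtain ⟨n, hn⟩ : ∃ n, Module.finrank A B = n + 1 :=
    Nat.exists_eq_succ_of_ne_zero fun h => by
      have hb := ((Module.finBasis A B).reindex (finCongr h)).sum_repr (1 : B)
      rw [Fin.sum_univ_zero] at hb
      exact zero_ne_one hb
  let b₀ : Module.Basis (Fin (n + 1)) A B := (Module.finBasis A B).reindex (finCongr hn)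
  obtain ⟨i₀, hi₀⟩ : ∃ i, b₀.repr 1 i ∉ maximalIdeal A := by
    by_contra hcon
    push Not at hcon
    refine (maximalIdeal B).ne_top_iff_one.1 (Ideal.IsMaximal.ne_top inferInstance) (hmap ?_)
    rw [← b₀.sum_repr 1]
    exact Ideal.sum_mem _ fun i _ => by
      rw [Algebra.smul_def]
      exact Ideal.mul_mem_right _ _ (Ideal.mem_map_of_mem _ (hcon i))
  let b₁ : Module.Basis (Fin (n + 1)) A B := b₀.reindex (Equiv.swap i₀ 0)
  have hu : IsUnit (b₁.repr 1 0) := by
    simpa [b₁, Module.Basis.repr_reindex_apply, mem_maximalIdeal] using hi₀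
  choose cb hcb using fun j => hresB (b₁ j)
  let f : Fin (n + 1) → B := Fin.cons 1 fun j => b₁ j.succ - algebraMap k B (cb j.succ)
  have hf0 : f 0 = 1 := rfl
  have hfs : ∀ j, f (Fin.succ j) = b₁ j.succ - algebraMap k B (cb j.succ) :=
    fun j => Fin.cons_succ _ _ j
  have hspan : ∀ j, b₁ j ∈ Submodule.span A (Set.range f) := by
    have h1 : ∀ a : A, algebraMap A B a ∈ Submodule.span A (Set.range f) := fun a => by
      rw [Algebra.algebraMap_eq_smul_one, ← hf0]
      exact Submodule.smul_mem _ _ (Submodule.subset_span ⟨0, rfl⟩)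
    have hs : ∀ j : Fin n, b₁ j.succ ∈ Submodule.span A (Set.range f) := fun j => by
      have h := add_mem (Submodule.subset_span (R := A) (Set.mem_range_self (f := f) j.succ))
        (h1 (algebraMap k A (cb j.succ)))
      rwa [hfs, ← IsScalarTower.algebraMap_apply, sub_add_cancel] at h
    intro j
    induction j using Fin.cases with
    | zero =>
      have h := b₁.sum_repr (1 : B)
      rw [Fin.sum_univ_succ, ← eq_sub_iff_add_eq] at h
      rw [show b₁ 0 = (↑hu.unit⁻¹ : A) • (b₁.repr 1 0 • b₁ 0) by
        rw [← mul_smul, IsUnit.val_inv_mul, one_smul], h]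
      refine Submodule.smul_mem _ _ (sub_mem ?_ (Submodule.sum_mem _ fun i _ =>
        Submodule.smul_mem _ _ (hs i)))
      simpa using h1 1
    | succ j => exact hs j
  let T : B →ₗ[A] B := b₁.constr A f
  have hT : Function.Surjective T := by
    rw [← LinearMap.range_eq_top, Module.Basis.constr_range, eq_top_iff, ← b₁.span_eq,
      Submodule.span_le]
    rintro _ ⟨j, rfl⟩
    exact hspan j
  have hTb : Function.Bijective T :=
    ⟨OrzechProperty.injective_of_surjective_endomorphism T hT, hT⟩
  let b : Module.Basis (Fin (n + 1)) A B := b₁.map (LinearEquiv.ofBijective T hTb)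
  have hbf : ∀ j, b j = f j := fun j => by
    rw [Module.Basis.map_apply, LinearEquiv.ofBijective_apply, Module.Basis.constr_basis]
  have hbm : ∀ j, j ≠ 0 → b j ∈ maximalIdeal B := by
    intro j hj
    obtain ⟨i, rfl⟩ := Fin.exists_succ_eq.2 hj
    rw [hbf, hfs]
    exact hcb _
  have hgen : maximalIdeal B ≤ (maximalIdeal A).map (algebraMap A B) ⊔ Ideal.span (b '' {0}ᶜ) := by
    intro a ha
    have hrest : ∑ i : Fin n, b.repr a i.succ • b i.succ ∈
        (maximalIdeal A).map (algebraMap A B) ⊔ Ideal.span (b '' {0}ᶜ) :=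
      Ideal.mem_sup_right (Ideal.sum_mem _ fun i _ => by
        rw [Algebra.smul_def]
        exact Ideal.mul_mem_left _ _ (Ideal.subset_span ⟨i.succ, Fin.succ_ne_zero i, rfl⟩))
    have h := b.sum_repr a
    rw [Fin.sum_univ_succ, hbf 0, hf0, ← Algebra.algebraMap_eq_smul_one] at h
    have ha0 : algebraMap A B (b.repr a 0) ∈ maximalIdeal B := by
      rw [← eq_sub_iff_add_eq] at h
      rw [h]
      refine sub_mem ha (Ideal.sum_mem _ fun i _ => ?_)
      rw [Algebra.smul_def]
      exact Ideal.mul_mem_left _ _ (hbm _ (Fin.succ_ne_zero i))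
    have hA0 : b.repr a 0 ∈ maximalIdeal A := by
      rw [mem_maximalIdeal, mem_nonunits_iff]
      exact fun hu' => ha0 (hu'.map _)
    rw [← h]
    exact add_mem (Ideal.mem_sup_left (Ideal.mem_map_of_mem _ hA0)) hrest
  obtain ⟨t, ht⟩ := exists_maximalIdeal_pow_le_map (R := A) (S := B)
  -- the reduction
  have : Infinite (ResidueField B) := Infinite.of_injective _ hbij.injective
  obtain ⟨y₀, r, hy, hyr⟩ := exists_reduction (A := B)
  have hym : ∀ i, y₀ i ∈ maximalIdeal B := fun i => hy (Ideal.subset_span ⟨i, rfl⟩)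
  have hyr0 : maximalIdeal B ^ (1 + r) ≤ Ideal.span (Set.range y₀) := by simpa using hyr 1
  obtain ⟨φ, hC, hX, -⟩ := exists_evalHom (algebraMap k B) y₀ hym
  have hspany : (fun i => φ (MvPowerSeries.X i)) = y₀ := funext hX
  have hφ : φ.Finite := finite_of_powerSeriesHom φ
    (fun a => by
      obtain ⟨c, hc⟩ := hresB a
      exact ⟨c, by rw [hC]; exact hc⟩)
    (fun i => by rw [hX]; exact hym i) (r := 1 + r) (by rw [hspany]; exact hyr0)
  obtain ⟨L, hLe, hLle⟩ := NC.emult_le_liminf_hsSeq hresB rfl φ hφ hC (r := r)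
    (by rw [hspany]; exact hyr)
  rw [hspany] at hLe
  have hrange : Set.range (fun i => y₀ (Fin.cast hd.symm i)) = Set.range y₀ :=
    Function.Surjective.range_comp (fun j => ⟨Fin.cast hd j, by simp⟩) y₀
  refine ⟨n, b, fun i => y₀ (Fin.cast hd.symm i), L, by rw [hbf, hf0], fun j hj =>
    ⟨t, ht (Ideal.pow_mem_pow (hbm j hj) t)⟩, fun l => hgen (hym _), fun l => hym _, hresB, hd, ?_,
    ?_, hLle⟩
  · have : Module.Finite k (B ⧸ maximalIdeal B) := ‹Module.Finite k (ResidueField B)›
    have := finite_quot_pow (k := k) (maximalIdeal B) (1 + r)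
    rw [hrange]
    exact finite_quot_of_le hyr0
  · rw [show List.ofFn (fun i => y₀ (Fin.cast hd.symm i)) = List.ofFn y₀ by rw [List.ofFn_congr hd],
      hLe]

end Vale.Agent.P202.Zero
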