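import Mathlib

/-!
# P202, equal characteristic zero: finite residue fields of finitely generated rings

A finitely generated subring of a field maps to a finite field.
-/

noncomputable section

namespace Vale.Agent.P202.Zero

universe u

/-- The integers form a Jacobson ring. -/
theorem isJacobsonRing_int : IsJacobsonRing ℤ := by
  rw [isJacobsonRing_iff_prime_eq]
  intro P hP
  by_cases h : P = ⊥
  · subst h
    refine le_antisymm (fun x hx => ?_) Ideal.le_jacobson
    have h3 := Int.isUnit_iff.1 (Ideal.mem_jacobson_bot.1 hx 3)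
    rw [Ideal.mem_bot]
    omega
  · have : P.IsMaximal := hP.isMaximal h
    exact Ideal.jacobson_eq_self_of_isMaximal

/-- A field of finite type over the integers is finite. -/
theorem finite_of_finiteType_int (K : Type u) [Field K] [Algebra.FiniteType ℤ K] :
    Finite K ∧ ∃ p : ℕ, p.Prime ∧ CharP K p := by
  have := isJacobsonRing_int
  have hfin : Module.Finite ℤ K := finite_of_finite_type_of_isJacobsonRing ℤ K
  have hp : CharP K (ringChar K) := ringChar.charP K
  rcases CharP.char_is_prime_or_zero K (ringChar K) with hprime | hzero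
  · refine ⟨Module.finite_of_fg_torsion K fun {x} => ?_, ringChar K, hprime, hp⟩
    refine ⟨⟨(ringChar K : ℤ), mem_nonZeroDivisors_of_ne_zero (by exact_mod_cast hprime.ne_zero)⟩, ?_⟩
    show (ringChar K : ℤ) • x = 0
    rw [zsmul_eq_mul, Int.cast_natCast, CharP.cast_eq_zero K (ringChar K), zero_mul]
  · rw [hzero] at hp
    have : CharZero K := CharP.charP_to_charZero K
    exact absurd (isField_of_isIntegral_of_isField (R := ℤ) (S := K)
      (RingHom.injective_int (algebraMap ℤ K)) (Field.toIsField K)) Int.not_isField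

/-- Finitely many scalars lie in a subring with a homomorphism to a finite field. -/
theorem exists_finite_reduction {k : Type u} [Field k] (T : Finset k) :
    ∃ D : Subring k, (T : Set k) ⊆ D ∧ ∃ (κ : Type u) (_ : Field κ) (_ : Finite κ) (p : ℕ)
      (_ : Fact p.Prime) (_ : CharP κ p), Nonempty (D →+* κ) := by
  let A := Algebra.adjoin ℤ (T : Set k)
  have hA : Algebra.FiniteType ℤ A :=
    Subalgebra.fg_iff_finiteType A |>.1 ⟨T, rfl⟩
  refine ⟨A.toSubring, Algebra.subset_adjoin, ?_⟩
  obtain ⟨m, hm⟩ := Ideal.exists_maximal A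
  let : Field (A ⧸ m) := Ideal.Quotient.field m
  obtain ⟨hfin, p, hp, hchar⟩ := @finite_of_finiteType_int (A ⧸ m) _
    (hA.of_surjective (Ideal.Quotient.mk m).toIntAlgHom Ideal.Quotient.mk_surjective)
  exact ⟨A ⧸ m, inferInstance, hfin, p, ⟨hp⟩, hchar, ⟨Ideal.Quotient.mk m⟩⟩

end Vale.Agent.P202.Zero
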