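import Vale.Agent.P202.Zero.Descent.Target
import Vale.Agent.P202.Zero.Length
import Vale.Agent.P202.NC.General

/-!
# P202, equal characteristic zero: the inequality read off a model in characteristic `p`
-/

noncomputable section

namespace Vale.Agent.P202.Zero

open IsLocalRing Filter TensorProduct
open scoped ENNReal

attribute [local instance] Algebra.TensorProduct.rightAlgebra

universe u

/-- The bound from a source and a free algebra over it. -/
theorem le_of_flat {κ : Type u} [Field κ] (p : ℕ) [Fact p.Prime]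
    {A : Type u} [CommRing A] [IsNoetherianRing A] [IsLocalRing A] [CharP A p]
    [PerfectField (ResidueField A)] {d e N ℓ : ℕ} (hAd : dimNat A = d)
    (hAe : (e : ℝ≥0∞) ≤ limsup (hsSeq A) atTop)
    {B : Type u} [CommRing B] [IsNoetherianRing B] [IsLocalRing B] [Algebra A B]
    [IsLocalHom (algebraMap A B)] [Module.Flat A B] [Algebra κ B]
    (hBres : ∀ a : B, ∃ q : κ, a - algebraMap κ B q ∈ maximalIdeal B) (hBd : dimNat B = dimNat A)
    (y : Fin d → B) (hym : ∀ l, y l ∈ maximalIdeal B) (hN : 1 ≤ N)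
    (hfin : Module.Finite κ (B ⧸ Ideal.span (Set.range fun l => y l ^ N)))
    (hle : Module.finrank κ (B ⧸ Ideal.span (Set.range fun l => y l ^ N)) ≤ ℓ) :
    e * N ^ d ≤ ℓ := by
  have h3 := (hAe.trans (lech_charP p A B)).trans
    (liminf_hsSeq_le_finrank hBres (hBd.trans hAd) y hym hN)
  have hN0 : ((N : ℝ≥0∞) ^ d) ≠ 0 := pow_ne_zero _ (by exact_mod_cast (by omega : N ≠ 0))
  rw [ENNReal.le_div_iff_mul_le (Or.inl hN0)
    (Or.inl (ENNReal.pow_ne_top (ENNReal.natCast_ne_top N)))] at h3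
  have h4 : e * N ^ d ≤ Module.finrank κ (B ⧸ Ideal.span (Set.range fun l => y l ^ N)) := by
    exact_mod_cast h3
  exact h4.trans hle

/-- Lech's inequality in characteristic `p`, applied to the base change of a model. -/
theorem le_of_model {κ : Type u} [Field κ] [Finite κ] (p : ℕ) [Fact p.Prime] [CharP κ p] {d : ℕ}
    {G : Type u} [CommRing G] [Algebra G (PS κ d)]
    {x : Fin d → G} (hx : ∀ i, algebraMap G (PS κ d) (x i) = MvPowerSeries.X i)
    {A₀ : Type u} [CommRing A₀] [Algebra G A₀] [Module.Finite G A₀]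
    {σ : Type*} {z : σ → A₀} (hz : Submodule.span G (Set.range z) = ⊤) {o : σ} (ho : z o = 1)
    {e : ℕ} {c : G} (hc : algebraMap G (PS κ d) c ≠ 0)
    (Θ : A₀ →ₗ[G] (Fin e → G)) (v : Fin e → A₀) (hv : ∀ j, Θ (v j) = c • Pi.single j 1) {r : ℕ}
    (hred : genIdeal x z o ^ (r + 1) ≤ varIdeal A₀ x * genIdeal x z o ^ r)
    {B₀ : Type u} [CommRing B₀] [Algebra A₀ B₀] {s : ℕ} (b : Module.Basis (Fin s) A₀ B₀) {o' : Fin s}
    (hb : b o' = 1)
    (hbt : ∀ j, j ≠ o' → ∃ t : ℕ, b j ^ t ∈ (genIdeal x z o).map (algebraMap A₀ B₀))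
    (y : Fin d → B₀)
    (hy : ∀ l, y l ∈ (genIdeal x z o).map (algebraMap A₀ B₀) ⊔ Ideal.span (b '' {o'}ᶜ))
    {N M ℓ : ℕ} (hN : 1 ≤ N)
    (hM : (varIdeal A₀ x ^ M).map (algebraMap A₀ B₀) ≤ Ideal.span (Set.range fun l => y l ^ N))
    (u : Fin ℓ → B₀) {C : Set G}
    (hC : ∀ g ∈ C, ∃ a : κ,
      algebraMap G (PS κ d) g - MvPowerSeries.C a ∈ maximalIdeal (PS κ d) ^ M)
    (hgu : ∀ i j, ∃ c : Fin ℓ → G, (∀ t, c t ∈ C) ∧ algebraMap A₀ B₀ (z i) * b j -
      ∑ t, algebraMap A₀ B₀ (algebraMap G A₀ (c t)) * u t ∈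
        Ideal.span (Set.range fun l => y l ^ N))
    (hxu : ∀ q r, ∃ c : Fin ℓ → G, (∀ t, c t ∈ C) ∧
      algebraMap A₀ B₀ (algebraMap G A₀ (x q)) * u r -
        ∑ t, algebraMap A₀ B₀ (algebraMap G A₀ (c t)) * u t ∈
          Ideal.span (Set.range fun l => y l ^ N)) :
    e * N ^ d ≤ ℓ := by
  rcases Nat.eq_zero_or_pos e with rfl | he
  · simp
  obtain ⟨hA, hAhom, hAmax, hAres, hAchar, hAperf, hAcomp, hAd, hAe⟩ :=
    source_facts (p := p) hx hz ho hc Θ v hv hred he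
  obtain ⟨hB, hBhom, hBnoeth, hBfin, hBflat, hBcomp, hBres, hBd, hym, hQfin, hQle⟩ :=
    target_facts (A := PS κ d ⊗[G] A₀) hx
      (fun g => ((Algebra.TensorProduct.includeRight (R := G) (A := PS κ d) (B := A₀)).commutes g).trans
        (IsScalarTower.algebraMap_apply G (PS κ d) (PS κ d ⊗[G] A₀) g))
      (span_includeRight hz) hAmax hAres b hb hbt y hy hM u hC hgu hxu
  have : IsNoetherianRing (PS κ d ⊗[G] A₀) := IsNoetherianRing.of_finite (PS κ d) _
  exact le_of_flat p hAd hAe hBres hBd _ hym hN hQfin hQle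

end Vale.Agent.P202.Zero
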