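import Vale.Agent.P202.Zero.Descent.Model

/-!
# P202, equal characteristic zero: finitely many witnesses for containments of ideals

A containment of finitely generated ideals holds in every subring containing finitely many
witnesses; the subalgebras used as models.
-/

noncomputable section

namespace Vale.Agent.P202.Zero

open scoped Pointwise

universe u

/-- The products of `n` of the members of a family. -/
def prodFam {A ι : Type*} [CommMonoid A] (n : ℕ) (w : ι → A) (f : Fin n → ι) : A := ∏ t, w (f t)

theorem map_prodFam {A A' ι : Type*} [CommSemiring A] [CommSemiring A'] (g : A →+* A') (n : ℕ)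
    (w : ι → A) (f : Fin n → ι) : g (prodFam n w f) = prodFam n (g ∘ w) f := map_prod g _ _

/-- A power of an ideal spanned by a family is spanned by the products. -/
theorem span_range_pow {A ι : Type*} [CommRing A] (w : ι → A) (n : ℕ) :
    Ideal.span (Set.range w) ^ n = Ideal.span (Set.range (prodFam n w)) := by
  rw [Ideal.span, Submodule.span_pow]
  congr 1
  ext a
  simp only [Set.mem_pow, Set.mem_range, List.prod_ofFn, prodFam]
  constructor
  · rintro ⟨f, rfl⟩
    choose g hg using fun t => (f t).2
    exact ⟨g, Finset.prod_congr rfl fun t _ => hg t⟩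
  · rintro ⟨g, rfl⟩
    exact ⟨fun t => ⟨w (g t), g t, rfl⟩, rfl⟩

/-- The products of two families span the product. -/
theorem span_range_mul {A ι ι' : Type*} [CommRing A] (w : ι → A) (w' : ι' → A) :
    Ideal.span (Set.range w) * Ideal.span (Set.range w') =
      Ideal.span (Set.range fun p : ι × ι' => w p.1 * w' p.2) := by
  rw [Ideal.span_mul_span']
  congr 1
  ext a
  simp [Set.mem_mul]

theorem span_range_sup {A ι ι' : Type*} [CommRing A] (w : ι → A) (w' : ι' → A) :
    Ideal.span (Set.range w) ⊔ Ideal.span (Set.range w') = Ideal.span (Set.range (Sum.elim w w')) := by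
  rw [Set.Sum.elim_range, Ideal.span_union]

/-- A containment between spans of finite families, witnessed by finitely many elements. -/
theorem exists_finite_span_le {A : Type u} [CommRing A] {ι ι' : Type*} [Finite ι] [Fintype ι']
    (w : ι → A) (w' : ι' → A) (h : ∀ i, w i ∈ Ideal.span (Set.range w')) :
    ∃ E : Set A, E.Finite ∧ ∀ (R₀ : Type u) [CommRing R₀] (f : R₀ →+* A), Function.Injective f →
      E ⊆ Set.range f → ∀ (w₀ : ι → R₀) (w₀' : ι' → R₀), (∀ i, f (w₀ i) = w i) →
        (∀ i, f (w₀' i) = w' i) → ∀ i, w₀ i ∈ Ideal.span (Set.range w₀') := by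
  choose c hc using fun i => Ideal.mem_span_range_iff_exists_fun.1 (h i)
  refine ⟨Set.range fun p : ι × ι' => c p.1 p.2, Set.finite_range _,
    fun R₀ _ f hf hE w₀ w₀' hw hw' i => ?_⟩
  choose a ha using fun j => hE ⟨(i, j), rfl⟩
  refine Ideal.mem_span_range_iff_exists_fun.2 ⟨a, hf ?_⟩
  rw [map_sum, hw, ← hc i]
  simp only [map_mul, hw', ha]

section Models

variable {V A : Type u} [CommRing V] [CommRing A] [Algebra V A] {σ : Type*}

/-- The finitely generated model of an algebra: the span of a family closed under multiplication. -/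
def modelAlg (G : Subring V) (z : σ → A) (h1 : (1 : A) ∈ Submodule.span G (Set.range z))
    (hmul : ∀ i j, z i * z j ∈ Submodule.span G (Set.range z)) : Subalgebra G A :=
  (Submodule.span G (Set.range z)).toSubalgebra h1 fun a b ha hb => by
    induction ha using Submodule.span_induction with
    | mem x hx =>
      obtain ⟨i, rfl⟩ := hx
      induction hb using Submodule.span_induction with
      | mem y hy => obtain ⟨j, rfl⟩ := hy; exact hmul i j
      | zero => simp
      | add x y _ _ hx hy => rw [mul_add]; exact add_mem hx hy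
      | smul c x _ hx => rw [mul_smul_comm]; exact Submodule.smul_mem _ c hx
    | zero => simp
    | add x y _ _ hx hy => rw [add_mul]; exact add_mem hx hy
    | smul c x _ hx => rw [smul_mul_assoc]; exact Submodule.smul_mem _ c hx

/-- A combination with coefficients in the ring lies in the model. -/
theorem mem_span_of_coeff_mem [Fintype σ] {G : Subring V} {z : σ → A} {a : A} (c : σ → V)
    (hc : ∑ i, c i • z i = a) (hG : ∀ i, c i ∈ G) : a ∈ Submodule.span G (Set.range z) :=
  hc ▸ sum_mem fun i _ => Submodule.smul_mem _ (⟨c i, hG i⟩ : G) (Submodule.subset_span ⟨i, rfl⟩)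

/-- The model of the source, as an algebra on its own. -/
theorem exists_source_model [Fintype σ] (G : Subring V) (z : σ → A)
    (h1 : (1 : A) ∈ Submodule.span G (Set.range z))
    (hmul : ∀ i j, z i * z j ∈ Submodule.span G (Set.range z)) :
    ∃ (A₀ : Type u) (_ : CommRing A₀) (_ : Algebra G A₀) (_ : Module.Finite G A₀) (fA : A₀ →+* A)
      (z₀ : σ → A₀), Function.Injective fA ∧
      (∀ g : G, fA (algebraMap G A₀ g) = algebraMap V A g) ∧ (∀ i, fA (z₀ i) = z i) ∧
      Submodule.span G (Set.range z₀) = ⊤ ∧
      ∀ a ∈ Submodule.span G (Set.range z), a ∈ Set.range fA := by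
  let S := modelAlg G z h1 hmul
  let z₀ : σ → S := fun i => ⟨z i, Submodule.subset_span ⟨i, rfl⟩⟩
  have hz₀ : Submodule.span G (Set.range z₀) = ⊤ := by
    rw [eq_top_iff]
    rintro ⟨a, ha⟩ -
    change a ∈ Submodule.span G (Set.range z) at ha
    obtain ⟨w, hw⟩ := (Submodule.mem_span_range_iff_exists_fun G).1 ha
    refine (Submodule.mem_span_range_iff_exists_fun G).2 ⟨w, Subtype.ext ?_⟩
    simpa [z₀] using hw
  exact ⟨S, inferInstance, inferInstance,
    ⟨hz₀ ▸ Submodule.fg_span (Set.finite_range z₀)⟩, S.val.toRingHom, z₀, Subtype.val_injective,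
    fun _ => rfl, fun _ => rfl, hz₀, fun a ha => ⟨⟨a, ha⟩, rfl⟩⟩

end Models

section FreeModel

variable {A B : Type u} [CommRing A] [CommRing B] [Algebra A B] {ι : Type*}

/-- A basis whose structure constants lie in a subring gives a free model over it. -/
theorem exists_free_model [Fintype ι] {A₀ : Type u} [CommRing A₀] (fA : A₀ →+* A)
    (hfA : Function.Injective fA)
    (b : Module.Basis ι A B) (h1 : ∀ i, b.repr 1 i ∈ Set.range fA)
    (hmul : ∀ i j k, b.repr (b i * b j) k ∈ Set.range fA) :
    ∃ (B₀ : Type u) (_ : CommRing B₀) (_ : Algebra A₀ B₀) (b₀ : Module.Basis ι A₀ B₀) (fB : B₀ →+* B),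
      Function.Injective fB ∧ (∀ a, fB (algebraMap A₀ B₀ a) = algebraMap A B (fA a)) ∧
      (∀ i, fB (b₀ i) = b i) ∧ ∀ a : B, (∀ i, b.repr a i ∈ Set.range fA) → a ∈ Set.range fB := by
  classical
  let algB : Algebra A₀ B := ((algebraMap A B).comp fA).toAlgebra
  have hmem : ∀ a : B, (∀ i, b.repr a i ∈ Set.range fA) → a ∈ Submodule.span A₀ (Set.range b) := by
    intro a ha
    choose w hw using ha
    rw [← b.sum_repr a]
    refine sum_mem fun i _ => ?_
    rw [← hw i, Algebra.smul_def]
    have := Submodule.smul_mem (Submodule.span A₀ (Set.range b)) (w i)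
      (Submodule.subset_span ⟨i, rfl⟩)
    rwa [Algebra.smul_def] at this
  let M : Subalgebra A₀ B := (Submodule.span A₀ (Set.range b)).toSubalgebra (hmem 1 h1)
    fun x y hx hy => by
      induction hx using Submodule.span_induction with
      | mem x hx =>
        obtain ⟨i, rfl⟩ := hx
        induction hy using Submodule.span_induction with
        | mem y hy => obtain ⟨j, rfl⟩ := hy; exact hmem _ (hmul i j)
        | zero => simp
        | add x y _ _ hx hy => rw [mul_add]; exact add_mem hx hy
        | smul c x _ hx => rw [mul_smul_comm]; exact Submodule.smul_mem _ c hx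
      | zero => simp
      | add x y _ _ hx hy => rw [add_mul]; exact add_mem hx hy
      | smul c x _ hx => rw [smul_mul_assoc]; exact Submodule.smul_mem _ c hx
  let w : ι → M := fun i => ⟨b i, Submodule.subset_span ⟨i, rfl⟩⟩
  have hli : LinearIndependent A₀ w := by
    refine Fintype.linearIndependent_iff.2 fun g hg i => hfA ?_
    rw [map_zero]
    refine Fintype.linearIndependent_iff.1 b.linearIndependent (fun i => fA (g i)) ?_ i
    have h := congrArg M.val hg
    simpa [map_sum, w, Algebra.smul_def, RingHom.algebraMap_toAlgebra] using h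
  have hsp : ⊤ ≤ Submodule.span A₀ (Set.range w) := by
    rintro ⟨a, ha⟩ -
    change a ∈ Submodule.span A₀ (Set.range b) at ha
    obtain ⟨c, hc⟩ := (Submodule.mem_span_range_iff_exists_fun A₀).1 ha
    refine (Submodule.mem_span_range_iff_exists_fun A₀).2 ⟨c, Subtype.ext ?_⟩
    simpa [w] using hc
  refine ⟨M, inferInstance, inferInstance, Module.Basis.mk hli hsp, M.val.toRingHom,
    Subtype.val_injective, fun _ => rfl, fun i => ?_, fun a ha => ⟨⟨a, hmem a ha⟩, rfl⟩⟩
  rw [Module.Basis.mk_apply]
  rfl

end FreeModel

end Vale.Agent.P202.Zero
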