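import Vale.Agent.P202.Zero.Approx.Defs
import Vale.Agent.P202.Zero.Descent.Witness
import Vale.Agent.P202.Zero.Descent.Transfer

/-!
# P202, equal characteristic zero: descent to characteristic `p`

Data of a finite flat extension over power series are moved to a finite field through a finitely
generated model, giving the inequality between multiplicity and colength.
-/

noncomputable section

namespace Vale.Agent.P202.Zero

open IsLocalRing

universe u

/-- A finite reduction of finitely many scalars. -/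
def HasFiniteReduction (k : Type u) [Field k] : Prop :=
  ∀ T : Finset k, ∃ D : Subring k, (T : Set k) ⊆ (D : Set k) ∧
    ∃ (κ : Type u) (_ : Field κ) (_ : Finite κ) (p : ℕ) (_ : Fact p.Prime) (_ : CharP κ p),
      Nonempty (D →+* κ)

/-- The generators of the maximal ideal of a model. -/
def genFam {d : ℕ} {G A : Type*} [CommRing G] [CommRing A] [Algebra G A] {σ : Type*}
    (x : Fin d → G) (z : σ → A) (o : σ) : Fin d ⊕ {i : σ // i ≠ o} → A :=
  Sum.elim (fun i => algebraMap G A (x i)) fun i => z i.1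

theorem genIdeal_eq {d : ℕ} {G A : Type u} [CommRing G] [CommRing A] [Algebra G A] {σ : Type*}
    (x : Fin d → G) (z : σ → A) (o : σ) :
    genIdeal x z o = Ideal.span (Set.range (genFam x z o)) := by
  rw [genFam, ← span_range_sup, genIdeal, varIdeal]
  congr 2
  ext a
  simp [Set.mem_image, and_comm]

section Witnesses

variable {V A B : Type u} [CommRing V] [CommRing A] [Algebra V A] [CommRing B] [Algebra A B]
  {d : ℕ} {σ : Type*} [Fintype σ] [DecidableEq σ]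

omit [Fintype σ] [DecidableEq σ] in
theorem map_genFam {G A₀ : Type u} [CommRing G] [CommRing A₀] [Algebra G A₀] (ι : G →+* V)
    (fA : A₀ →+* A) (hι : ∀ g, fA (algebraMap G A₀ g) = algebraMap V A (ι g))
    (x₀ : Fin d → G) (xV : Fin d → V) (hx : ∀ i, ι (x₀ i) = xV i)
    (z₀ : σ → A₀) (z : σ → A) (hz : ∀ i, fA (z₀ i) = z i) (o : σ) (i : Fin d ⊕ {i : σ // i ≠ o}) :
    fA (genFam x₀ z₀ o i) = genFam xV z o i := by
  rcases i with i | i
  · simp only [genFam, Sum.elim_inl, hι, hx]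
  · simp only [genFam, Sum.elim_inr, hz]

/-- Finitely many witnesses for the reduction in the source. -/
theorem exists_source_witness (xV : Fin d → V) (z : σ → A) (o : σ) {r : ℕ}
    (hred : genIdeal xV z o ^ (r + 1) ≤ varIdeal A xV * genIdeal xV z o ^ r) :
    ∃ E : Set A, E.Finite ∧ ∀ (G A₀ : Type u) [CommRing G] [CommRing A₀] [Algebra G A₀]
      (ι : G →+* V) (fA : A₀ →+* A), (∀ g, fA (algebraMap G A₀ g) = algebraMap V A (ι g)) →
      Function.Injective fA → E ⊆ Set.range fA → ∀ (x₀ : Fin d → G) (z₀ : σ → A₀),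
      (∀ i, ι (x₀ i) = xV i) → (∀ i, fA (z₀ i) = z i) →
        genIdeal x₀ z₀ o ^ (r + 1) ≤ varIdeal A₀ x₀ * genIdeal x₀ z₀ o ^ r := by
  obtain ⟨E, hEf, hE⟩ := exists_finite_span_le (prodFam (r + 1) (genFam xV z o))
    (fun p : Fin d × (Fin r → Fin d ⊕ {i : σ // i ≠ o}) =>
      algebraMap V A (xV p.1) * prodFam r (genFam xV z o) p.2) (fun f => by
    have h := hred
    rw [genIdeal_eq, span_range_pow, span_range_pow, varIdeal, span_range_mul] at h
    exact h (Ideal.subset_span ⟨f, rfl⟩))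
  refine ⟨E, hEf, fun G A₀ _ _ _ ι fA hι hfA hr x₀ z₀ hx hz => ?_⟩
  rw [genIdeal_eq, span_range_pow, span_range_pow, varIdeal, span_range_mul, Ideal.span_le,
    Set.range_subset_iff]
  have hg : fA ∘ genFam x₀ z₀ o = genFam xV z o :=
    funext (map_genFam ι fA hι x₀ xV hx z₀ z hz o)
  exact hE A₀ fA hfA hr _ _ (fun f => by rw [map_prodFam, hg])
    fun q => by rw [map_mul, map_prodFam, hg, hι, hx]

/-- Finitely many witnesses for the conditions on the target. -/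
theorem exists_target_witness (xV : Fin d → V) (z : σ → A) (o : σ) {s : ℕ} (b : Fin (s + 1) → B)
    (hbt : ∀ j, j ≠ 0 → ∃ t : ℕ, b j ^ t ∈ (genIdeal xV z o).map (algebraMap A B))
    (y : Fin d → B)
    (hy : ∀ l, y l ∈ (genIdeal xV z o).map (algebraMap A B) ⊔ Ideal.span (b '' {0}ᶜ))
    {N M ℓ : ℕ}
    (hM : (varIdeal A xV ^ M).map (algebraMap A B) ≤ Ideal.span (Set.range fun l => y l ^ N))
    (u : Fin ℓ → B) (ga : σ → Fin (s + 1) → Fin ℓ → V)
    (hga : ∀ i j, algebraMap A B (z i) * b j -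
      ∑ t, algebraMap A B (algebraMap V A (ga i j t)) * u t ∈
        Ideal.span (Set.range fun l => y l ^ N))
    (xa : Fin d → Fin ℓ → Fin ℓ → V)
    (hxa : ∀ q t', algebraMap A B (algebraMap V A (xV q)) * u t' -
      ∑ t, algebraMap A B (algebraMap V A (xa q t' t)) * u t ∈
        Ideal.span (Set.range fun l => y l ^ N)) :
    ∃ E : Set B, E.Finite ∧ ∀ (G A₀ B₀ : Type u) [CommRing G] [CommRing A₀] [CommRing B₀]
      [Algebra G A₀] [Algebra A₀ B₀] (ι : G →+* V) (fA : A₀ →+* A) (fB : B₀ →+* B),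
      (∀ g, fA (algebraMap G A₀ g) = algebraMap V A (ι g)) →
      (∀ a, fB (algebraMap A₀ B₀ a) = algebraMap A B (fA a)) →
      Function.Injective fB → E ⊆ Set.range fB →
      ∀ (x₀ : Fin d → G) (z₀ : σ → A₀) (b₀ : Fin (s + 1) → B₀) (y₀ : Fin d → B₀)
        (u₀ : Fin ℓ → B₀) (ga₀ : σ → Fin (s + 1) → Fin ℓ → G) (xa₀ : Fin d → Fin ℓ → Fin ℓ → G),
      (∀ i, ι (x₀ i) = xV i) → (∀ i, fA (z₀ i) = z i) → (∀ j, fB (b₀ j) = b j) →
      (∀ l, fB (y₀ l) = y l) → (∀ t, fB (u₀ t) = u t) →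
      (∀ i j t, ι (ga₀ i j t) = ga i j t) → (∀ q r t, ι (xa₀ q r t) = xa q r t) →
        (∀ j, j ≠ 0 → ∃ t : ℕ, b₀ j ^ t ∈ (genIdeal x₀ z₀ o).map (algebraMap A₀ B₀)) ∧
        (∀ l, y₀ l ∈ (genIdeal x₀ z₀ o).map (algebraMap A₀ B₀) ⊔ Ideal.span (b₀ '' {0}ᶜ)) ∧
        (varIdeal A₀ x₀ ^ M).map (algebraMap A₀ B₀) ≤
          Ideal.span (Set.range fun l => y₀ l ^ N) ∧
        (∀ i j, algebraMap A₀ B₀ (z₀ i) * b₀ j -
          ∑ t, algebraMap A₀ B₀ (algebraMap G A₀ (ga₀ i j t)) * u₀ t ∈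
            Ideal.span (Set.range fun l => y₀ l ^ N)) ∧
        (∀ q r, algebraMap A₀ B₀ (algebraMap G A₀ (x₀ q)) * u₀ r -
          ∑ t, algebraMap A₀ B₀ (algebraMap G A₀ (xa₀ q r t)) * u₀ t ∈
            Ideal.span (Set.range fun l => y₀ l ^ N)) := by
  classical
  choose t ht using hbt
  have hmap : (genIdeal xV z o).map (algebraMap A B) =
      Ideal.span (Set.range fun i => algebraMap A B (genFam xV z o i)) := by
    rw [genIdeal_eq, Ideal.map_span, ← Set.range_comp]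
    rfl
  have hcompl : ∀ {R : Type u} (w : Fin (s + 1) → R),
      w '' {0}ᶜ = Set.range fun j : {j : Fin (s + 1) // j ≠ 0} => w j.1 := fun w => by
    ext a; simp
  obtain ⟨E2, hE2f, hE2⟩ := exists_finite_span_le
    (fun j : {j : Fin (s + 1) // j ≠ 0} => b j.1 ^ t j.1 j.2)
    (fun i => algebraMap A B (genFam xV z o i)) (fun j => hmap ▸ ht j.1 j.2)
  obtain ⟨E3, hE3f, hE3⟩ := exists_finite_span_le y
    (Sum.elim (fun i => algebraMap A B (genFam xV z o i))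
      fun j : {j : Fin (s + 1) // j ≠ 0} => b j.1) (fun l => by
    have h := hy l
    rwa [hmap, hcompl, span_range_sup] at h)
  obtain ⟨E4, hE4f, hE4⟩ := exists_finite_span_le
    (fun f => prodFam M (fun i => algebraMap A B (algebraMap V A (xV i))) f)
    (fun l => y l ^ N) (fun f => by
    refine hM ?_
    rw [varIdeal, Ideal.map_pow, Ideal.map_span, ← Set.range_comp, span_range_pow]
    exact Ideal.subset_span ⟨f, rfl⟩)
  obtain ⟨E5, hE5f, hE5⟩ := exists_finite_span_le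
    (fun p : σ × Fin (s + 1) => algebraMap A B (z p.1) * b p.2 -
      ∑ t, algebraMap A B (algebraMap V A (ga p.1 p.2 t)) * u t)
    (fun l => y l ^ N) (fun p => hga p.1 p.2)
  obtain ⟨E6, hE6f, hE6⟩ := exists_finite_span_le
    (fun p : Fin d × Fin ℓ => algebraMap A B (algebraMap V A (xV p.1)) * u p.2 -
      ∑ t, algebraMap A B (algebraMap V A (xa p.1 p.2 t)) * u t)
    (fun l => y l ^ N) (fun p => hxa p.1 p.2)
  refine ⟨E2 ∪ E3 ∪ E4 ∪ E5 ∪ E6, (((hE2f.union hE3f).union hE4f).union hE5f).union hE6f, ?_⟩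
  intro G A₀ B₀ _ _ _ _ _ ι fA fB hι hfAB hfB hE x₀ z₀ b₀ y₀ u₀ ga₀ xa₀ hx hz hb hy' hu hg hxa'
  simp only [Set.union_subset_iff] at hE
  obtain ⟨⟨⟨⟨h2, h3⟩, h4⟩, h5⟩, h6⟩ := hE
  have hgen : ∀ i, fB (algebraMap A₀ B₀ (genFam x₀ z₀ o i)) = algebraMap A B (genFam xV z o i) :=
    fun i => by rw [hfAB, map_genFam ι fA hι x₀ xV hx z₀ z hz o i]
  have hmap₀ : (genIdeal x₀ z₀ o).map (algebraMap A₀ B₀) =
      Ideal.span (Set.range fun i => algebraMap A₀ B₀ (genFam x₀ z₀ o i)) := by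
    rw [genIdeal_eq, Ideal.map_span, ← Set.range_comp]
    rfl
  have hpow : ∀ l, fB (y₀ l ^ N) = y l ^ N := fun l => by rw [map_pow, hy']
  refine ⟨fun j hj => ⟨t j hj, ?_⟩, fun l => ?_, ?_, fun i j => ?_, fun q r => ?_⟩
  · rw [hmap₀]
    exact hE2 B₀ fB hfB h2 (fun i : {i : Fin (s + 1) // i ≠ 0} => b₀ i.1 ^ t i.1 i.2) _
      (fun i => by rw [map_pow, hb]) hgen ⟨j, hj⟩
  · rw [hmap₀, hcompl, span_range_sup]
    refine hE3 B₀ fB hfB h3 y₀ _ hy' ?_ l
    rintro (i | i)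
    · exact hgen i
    · exact hb i.1
  · rw [varIdeal, Ideal.map_pow, Ideal.map_span, ← Set.range_comp, span_range_pow, Ideal.span_le,
      Set.range_subset_iff]
    refine hE4 B₀ fB hfB h4 _ _ (fun f => ?_) hpow
    rw [map_prodFam]
    congr 1
    funext i
    simp only [Function.comp_apply, hfAB, hι, hx]
  · exact hE5 B₀ fB hfB h5 (fun p => algebraMap A₀ B₀ (z₀ p.1) * b₀ p.2 -
      ∑ t, algebraMap A₀ B₀ (algebraMap G A₀ (ga₀ p.1 p.2 t)) * u₀ t) _
      (fun p => by simp only [map_sub, map_mul, map_sum, hfAB, hz, hb, hι, hg, hu]) hpow (i, j)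
  · exact hE6 B₀ fB hfB h6 (fun p => algebraMap A₀ B₀ (algebraMap G A₀ (x₀ p.1)) * u₀ p.2 -
      ∑ t, algebraMap A₀ B₀ (algebraMap G A₀ (xa₀ p.1 p.2 t)) * u₀ t) _
      (fun p => by simp only [map_sub, map_mul, map_sum, hfAB, hι, hx, hxa', hu]) hpow (q, r)

end Witnesses

variable {k : Type u} [Field k] {d : ℕ} {A : Type u} [CommRing A] [Algebra (PS k d) A] {m : ℕ}

/-- Descent: a colength of powers of parameters bounds the rank. -/
theorem le_of_data (happ : ApproxAt k d) (hred₀ : HasFiniteReduction k)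
    (z : Fin (m + 1) → A) (hz0 : z 0 = 1)
    (hz : Submodule.span (PS k d) (Set.range z) = ⊤) {r e : ℕ}
    (hred : genIdeal (fun i => (MvPowerSeries.X i : PS k d)) z 0 ^ (r + 1) ≤
      varIdeal A (fun i => (MvPowerSeries.X i : PS k d)) *
        genIdeal (fun i => (MvPowerSeries.X i : PS k d)) z 0 ^ r)
    {c : PS k d} (hc : c ≠ 0) (Θ : A →ₗ[PS k d] (Fin e → PS k d)) (v : Fin e → A)
    (hv : ∀ j, Θ (v j) = c • Pi.single j 1)
    {B : Type u} [CommRing B] [Algebra A B] {s : ℕ} (b : Module.Basis (Fin (s + 1)) A B)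
    (hb : b 0 = 1)
    (hbt : ∀ j, j ≠ 0 → ∃ t : ℕ, b j ^ t ∈
      (genIdeal (fun i => (MvPowerSeries.X i : PS k d)) z 0).map (algebraMap A B))
    (y : Fin d → B)
    (hy : ∀ l, y l ∈ (genIdeal (fun i => (MvPowerSeries.X i : PS k d)) z 0).map (algebraMap A B) ⊔
      Ideal.span (b '' {0}ᶜ))
    {N M ℓ : ℕ} (hN : 1 ≤ N)
    (hM : (varIdeal A (fun i => (MvPowerSeries.X i : PS k d)) ^ M).map (algebraMap A B) ≤
      Ideal.span (Set.range fun l => y l ^ N))
    (u : Fin ℓ → B)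
    (hgu : ∀ i j, ∃ a : Fin ℓ → k, algebraMap A B (z i) * b j -
      ∑ t, algebraMap A B (algebraMap (PS k d) A (MvPowerSeries.C (a t))) * u t ∈
        Ideal.span (Set.range fun l => y l ^ N))
    (hxu : ∀ q t', ∃ a : Fin ℓ → k,
      algebraMap A B (algebraMap (PS k d) A (MvPowerSeries.X q)) * u t' -
        ∑ t, algebraMap A B (algebraMap (PS k d) A (MvPowerSeries.C (a t))) * u t ∈
          Ideal.span (Set.range fun l => y l ^ N)) :
    e * N ^ d ≤ ℓ := by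
  classical
  set xV : Fin d → PS k d := fun i => MvPowerSeries.X i
  set I := Ideal.span (Set.range fun l => y l ^ N)
  choose co hco using fun a : A =>
    (Submodule.mem_span_range_iff_exists_fun (PS k d)).1 (hz.symm ▸ Submodule.mem_top (x := a))
  choose ga hga using hgu
  choose xa hxa using hxu
  obtain ⟨E1, hE1f, hE1⟩ := exists_source_witness xV z 0 hred
  obtain ⟨E2, hE2f, hE2⟩ := exists_target_witness xV z 0 b hbt y hy hM u
    (fun i j q => MvPowerSeries.C (ga i j q)) hga (fun i j q => MvPowerSeries.C (xa i j q)) hxa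
  -- the needed elements
  set EB : Set B := E2 ∪ Set.range y ∪ Set.range u ∪ {1} ∪
    Set.range fun p : Fin (s + 1) × Fin (s + 1) => b p.1 * b p.2 with hEB
  have hEBf : EB.Finite :=
    ((((hE2f.union (Set.finite_range y)).union
      (Set.finite_range u)).union (Set.finite_singleton 1)).union (Set.finite_range _))
  set EA : Set A := E1 ∪ {1} ∪ (Set.range fun p : Fin (m + 1) × Fin (m + 1) => z p.1 * z p.2) ∪
    Set.range v ∪ ⋃ i, (fun a => b.repr a i) '' EB with hEA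
  have hEAf : EA.Finite :=
    (((hE1f.union (Set.finite_singleton 1)).union (Set.finite_range _)).union
      (Set.finite_range v)).union (Set.finite_iUnion fun i => hEBf.image _)
  set SV : Set (PS k d) := (⋃ i, (fun a => co a i) '' EA) ∪ {c} ∪
    (Set.range fun p : Fin (m + 1) × Fin e => Θ (z p.1) p.2) ∪
    (Set.range fun p : Fin (m + 1) × Fin (s + 1) × Fin ℓ =>
      MvPowerSeries.C (ga p.1 p.2.1 p.2.2)) ∪
    (Set.range fun p : Fin d × Fin ℓ × Fin ℓ => MvPowerSeries.C (xa p.1 p.2.1 p.2.2)) with hSV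
  have hSVf : SV.Finite :=
    ((((Set.finite_iUnion fun i => hEAf.image _).union (Set.finite_singleton c)).union
      (Set.finite_range _)).union (Set.finite_range _)).union (Set.finite_range _)
  obtain ⟨ex, hex⟩ : ∃ ex, MvPowerSeries.coeff ex c ≠ 0 := by
    by_contra h
    push Not at h
    exact hc (MvPowerSeries.ext fun ex => by simpa using h ex)
  obtain ⟨T, hT⟩ := happ hSVf.toFinset (max M (ex.degree + 1))
  obtain ⟨D, hTD, κ, iκ, iκf, p, ip, ipc, ⟨ψ⟩⟩ := hred₀ (insert (MvPowerSeries.coeff ex c)⁻¹ T)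
  rw [Finset.coe_insert, Set.insert_subset_iff] at hTD
  set G := genRing hSVf.toFinset
  obtain ⟨φ, hφX, hφ⟩ := hT D hTD.2 κ ψ
  have hG : ∀ f ∈ SV, f ∈ G := fun f hf => Subring.subset_closure (Or.inr (by simpa using hf))
  have hXG : ∀ i, (MvPowerSeries.X i : PS k d) ∈ G := fun i =>
    Subring.subset_closure (Or.inl ⟨i, rfl⟩)
  let x₀ : Fin d → G := fun i => ⟨MvPowerSeries.X i, hXG i⟩
  let : Algebra G (PS κ d) := φ.toAlgebra
  have hx : ∀ i, algebraMap G (PS κ d) (x₀ i) = MvPowerSeries.X i := fun i => hφX i _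
  -- the model of the source
  have hspanA : ∀ a ∈ EA, a ∈ Submodule.span G (Set.range z) := fun a ha =>
    mem_span_of_coeff_mem (co a) (hco a) fun i =>
      hG _ (Or.inl (Or.inl (Or.inl (Or.inl (Set.mem_iUnion.2 ⟨i, a, ha, rfl⟩)))))
  obtain ⟨A₀, iA₀, iA₀a, iA₀f, fA, z₀, hfA, hfAι, hz₀', hz₀, hfAr⟩ := exists_source_model G z
    (hspanA 1 (Or.inl (Or.inl (Or.inl (Or.inr rfl)))))
    fun i j => hspanA _ (Or.inl (Or.inl (Or.inr ⟨(i, j), rfl⟩)))
  have hA₀ : ∀ a ∈ EA, a ∈ Set.range fA := fun a ha => hfAr a (hspanA a ha)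
  have hsmul : ∀ (g : G) (a : A₀), fA (g • a) = (g : PS k d) • fA a := fun g a => by
    rw [Algebra.smul_def, map_mul, hfAι, ← Algebra.smul_def]
  have hΘG : ∀ (a : A₀) (j : Fin e), Θ (fA a) j ∈ G := by
    intro a j
    obtain ⟨w, rfl⟩ := (Submodule.mem_span_range_iff_exists_fun G).1
      (hz₀.symm ▸ Submodule.mem_top (x := a))
    rw [map_sum, map_sum, Finset.sum_apply]
    refine sum_mem fun i _ => ?_
    rw [hsmul, hz₀', map_smul, Pi.smul_apply, smul_eq_mul]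
    exact mul_mem (w i).2 (hG _ (Or.inl (Or.inl (Or.inr ⟨(i, j), rfl⟩))))
  let Θ₀ : A₀ →ₗ[G] (Fin e → G) :=
    { toFun := fun a j => ⟨Θ (fA a) j, hΘG a j⟩
      map_add' := fun a a' => funext fun j => Subtype.ext
        (show Θ (fA (a + a')) j = Θ (fA a) j + Θ (fA a') j by rw [map_add, map_add]; rfl)
      map_smul' := fun w a => funext fun j => Subtype.ext
        (show Θ (fA (w • a)) j = (w : PS k d) * Θ (fA a) j by rw [hsmul, map_smul]; rfl) }
  choose v₀ hv₀' using fun j : Fin e => hA₀ (v j) (Or.inl (Or.inr ⟨j, rfl⟩))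
  have hcG : c ∈ G := hG _ (Or.inl (Or.inl (Or.inl (Or.inr rfl))))
  let c₀ : G := ⟨c, hcG⟩
  have hv₀ : ∀ j, Θ₀ (v₀ j) = c₀ • Pi.single j 1 := fun j => funext fun i => Subtype.ext (by
    show Θ (fA (v₀ j)) i = (((c₀ • Pi.single j 1 : Fin e → G) i : G) : PS k d)
    rw [hv₀', hv]
    by_cases hij : i = j <;> simp [hij, c₀])
  have hjet : ∀ (f : PS k d) (hf : f ∈ SV) (hf' : f ∈ G),
      JetEq D ψ (max M (ex.degree + 1)) f (φ ⟨f, hf'⟩) :=
    fun f hf hf' => hφ f hf' (by simpa using hf)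
  have hc₀ : algebraMap G (PS κ d) c₀ ≠ 0 := by
    intro h
    obtain ⟨hD, hval⟩ := hjet c (Or.inl (Or.inl (Or.inl (Or.inr rfl)))) hcG ex
      (lt_of_lt_of_le (Nat.lt_succ_self _) (le_max_right _ _))
    rw [show φ ⟨c, hcG⟩ = 0 from h, map_zero] at hval
    have h1 : (⟨_, hD⟩ : D) * ⟨_, hTD.1⟩ = 1 := Subtype.ext (mul_inv_cancel₀ hex)
    have h2 := congrArg ψ h1
    rw [map_mul, hval, zero_mul, map_one] at h2
    exact zero_ne_one h2
  have hred' : genIdeal x₀ z₀ 0 ^ (r + 1) ≤ varIdeal A₀ x₀ * genIdeal x₀ z₀ 0 ^ r :=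
    hE1 G A₀ G.subtype fA hfAι hfA
      (fun a ha => hA₀ a (Or.inl (Or.inl (Or.inl (Or.inl ha))))) x₀ z₀ (fun _ => rfl) hz₀'
  -- the model of the target
  have hreprA : ∀ a ∈ EB, ∀ i, b.repr a i ∈ Set.range fA := fun a ha i =>
    hA₀ _ (Or.inr (Set.mem_iUnion.2 ⟨i, a, ha, rfl⟩))
  obtain ⟨B₀, iB₀, iB₀a, b₀, fB, hfB, hfAB, hb₀, hB₀'⟩ := exists_free_model fA hfA b
    (hreprA 1 (Or.inl (Or.inr rfl))) fun i j => hreprA _ (Or.inr ⟨(i, j), rfl⟩)
  have hEBr : EB ⊆ Set.range fB := fun a ha => hB₀' a (hreprA a ha)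
  choose y₀ hy₀' using fun l : Fin d =>
    hEBr (show y l ∈ EB from Or.inl (Or.inl (Or.inl (Or.inr ⟨l, rfl⟩))))
  choose u₀ hu₀' using fun q : Fin ℓ =>
    hEBr (show u q ∈ EB from Or.inl (Or.inl (Or.inr ⟨q, rfl⟩)))
  let C₀ : Set G := {f | ∃ a : k, (f : PS k d) = MvPowerSeries.C a ∧ (f : PS k d) ∈ SV}
  have hC : ∀ f ∈ C₀, ∃ a : κ,
      algebraMap G (PS κ d) f - MvPowerSeries.C a ∈ maximalIdeal (PS κ d) ^ M := by
    rintro ⟨f, hf⟩ ⟨a, ha, hfS⟩
    obtain ⟨hD, hval⟩ := hjet f hfS hf 0 (by simp)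
    refine ⟨ψ ⟨_, hD⟩, ?_⟩
    rw [maximalIdeal_mvPowerSeries]
    refine mem_span_X_pow fun q hq => ?_
    obtain ⟨hDq, hvalq⟩ := hjet f hfS hf q (lt_of_lt_of_le hq (le_max_left _ _))
    rw [map_sub, sub_eq_zero, show algebraMap G (PS κ d) ⟨f, hf⟩ = φ ⟨f, hf⟩ from rfl, ← hvalq,
      MvPowerSeries.coeff_C]
    split_ifs with hq0
    · subst hq0; rfl
    · refine (congrArg ψ (Subtype.ext ?_)).trans (map_zero ψ)
      show MvPowerSeries.coeff q f = 0
      rw [show f = MvPowerSeries.C a from ha, MvPowerSeries.coeff_C, if_neg hq0]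
  have := ip
  have := ipc
  have hga' : ∀ i j q, (MvPowerSeries.C (ga i j q) : PS k d) ∈ SV := fun i j q =>
    Or.inl (Or.inr ⟨(i, j, q), rfl⟩)
  have hxa'' : ∀ i j q, (MvPowerSeries.C (xa i j q) : PS k d) ∈ SV := fun i j q =>
    Or.inr ⟨(i, j, q), rfl⟩
  obtain ⟨hbt₀, hy₀, hM₀, hgu₀, hxu₀⟩ := hE2 G A₀ B₀ G.subtype fA fB hfAι hfAB
    hfB (fun a ha => hEBr (Or.inl (Or.inl (Or.inl (Or.inl ha))))) x₀ z₀ b₀ y₀ u₀
    (fun i j q => ⟨_, hG _ (hga' i j q)⟩) (fun i j q => ⟨_, hG _ (hxa'' i j q)⟩)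
    (fun _ => rfl) hz₀' hb₀ hy₀' hu₀' (fun _ _ _ => rfl) (fun _ _ _ => rfl)
  have hb1 : b₀ 0 = 1 := hfB (by rw [hb₀, hb, map_one])
  have hz1 : z₀ 0 = 1 := hfA (by rw [hz₀', hz0, map_one])
  exact le_of_model (κ := κ) (C := C₀) p hx hz₀ hz1 hc₀ Θ₀ v₀ hv₀ hred' b₀ hb1 hbt₀ y₀ hy₀ hN
    hM₀ u₀ hC (fun i j => ⟨_, fun q => ⟨_, rfl, hga' i j q⟩, hgu₀ i j⟩)
    (fun i j => ⟨_, fun q => ⟨_, rfl, hxa'' i j q⟩, hxu₀ i j⟩)

end Vale.Agent.P202.Zero
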