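import Vale.Agent.P202.Zero.Descent.Tools
import Vale.Agent.P202.NC.Witness
import Vale.Agent.P202.NC.Hilbert

/-!
# P202, equal characteristic zero: base change of finitely generated models to power series

A model over a ring `G` mapping to power series over a field: a finite algebra `A₀` with a
reduction, a free `A₀`-algebra `B₀`, and witnesses. After base change the source keeps its
multiplicity and the target its colength.
-/

noncomputable section

namespace Vale.Agent.P202.Zero

open IsLocalRing Filter TensorProduct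
open scoped ENNReal

universe u

variable {κ : Type u} [Field κ] {d : ℕ} {G : Type u} [CommRing G] [Algebra G (PS κ d)]
  {x : Fin d → G} (hx : ∀ i, algebraMap G (PS κ d) (x i) = MvPowerSeries.X i)
  {A₀ : Type u} [CommRing A₀] [Algebra G A₀] [Module.Finite G A₀]
  {σ : Type*} {z : σ → A₀} (hz : Submodule.span G (Set.range z) = ⊤) {o : σ} (ho : z o = 1)

/-- The ideal of the variables in the model. -/
def varIdeal (A₀ : Type u) [CommRing A₀] [Algebra G A₀] (x : Fin d → G) : Ideal A₀ :=
  Ideal.span (Set.range fun i => algebraMap G A₀ (x i))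

/-- The maximal ideal of the model. -/
def genIdeal (x : Fin d → G) (z : σ → A₀) (o : σ) : Ideal A₀ :=
  varIdeal A₀ x ⊔ Ideal.span (z '' {o}ᶜ)

omit [Module.Finite G A₀] in
include hz in
theorem span_includeRight :
    Submodule.span (PS κ d) (Set.range fun i => ((1 : PS κ d) ⊗ₜ[G] z i)) = ⊤ := by
  rw [eq_top_iff]
  rintro q -
  induction q with
  | zero => exact zero_mem _
  | add a b ha hb => exact add_mem ha hb
  | tmul v a =>
    have ha : a ∈ Submodule.span G (Set.range z) := hz ▸ Submodule.mem_top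
    induction ha using Submodule.span_induction with
    | mem w hw =>
      obtain ⟨i, rfl⟩ := hw
      rw [show v ⊗ₜ[G] z i = v • ((1 : PS κ d) ⊗ₜ[G] z i) by
        rw [TensorProduct.smul_tmul', smul_eq_mul, mul_one]]
      exact Submodule.smul_mem _ _ (Submodule.subset_span ⟨i, rfl⟩)
    | zero => rw [TensorProduct.tmul_zero]; exact zero_mem _
    | add a b _ _ ha hb => rw [TensorProduct.tmul_add]; exact add_mem ha hb
    | smul g a _ ha =>
      rw [TensorProduct.tmul_smul, ← algebraMap_smul (PS κ d) g]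
      exact Submodule.smul_mem _ _ ha

variable {e : ℕ} {c : G} (hc : algebraMap G (PS κ d) c ≠ 0)
  (Θ : A₀ →ₗ[G] (Fin e → G)) (v : Fin e → A₀) (hv : ∀ j, Θ (v j) = c • Pi.single j 1)

omit [Module.Finite G A₀] in
include hc hv in
theorem linearIndependent_includeRight :
    LinearIndependent (PS κ d) fun j => ((1 : PS κ d) ⊗ₜ[G] v j) := by
  classical
  have : IsDomain (PS κ d) := NoZeroDivisors.to_isDomain _
  let L : PS κ d ⊗[G] A₀ →ₗ[PS κ d] (Fin e → PS κ d) :=
    LinearMap.liftBaseChange (PS κ d) (((Algebra.linearMap G (PS κ d)).compLeft (Fin e)).comp Θ)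
  have hL : ∀ j, L ((1 : PS κ d) ⊗ₜ[G] v j) = algebraMap G (PS κ d) c • Pi.single j 1 := by
    intro j
    simp only [L, LinearMap.liftBaseChange_tmul, one_smul, LinearMap.comp_apply, hv]
    funext i
    show algebraMap G (PS κ d) ((c • Pi.single j 1 : Fin e → G) i) =
      (algebraMap G (PS κ d) c • (Pi.single j 1 : Fin e → PS κ d)) i
    by_cases hij : i = j <;> simp [hij]
  rw [Fintype.linearIndependent_iff]
  intro g hg j
  have h := congrFun (congrArg L hg) j
  simp only [map_sum, map_smul, hL, map_zero, Finset.sum_apply, Pi.smul_apply, Pi.single_apply,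
    smul_eq_mul, mul_ite, mul_one, mul_zero, Finset.sum_ite_eq, Finset.mem_univ, if_true,
    Pi.zero_apply] at h
  exact (mul_eq_zero.1 h).resolve_right hc

variable [Finite κ] {p : ℕ} [CharP κ p] {r : ℕ}

omit [Module.Finite G A₀] in
include hx in
theorem map_varIdeal {A : Type u} [CommRing A] [Algebra (PS κ d) A] (j : A₀ →+* A)
    (hj : ∀ g, j (algebraMap G A₀ g) = algebraMap (PS κ d) A (algebraMap G (PS κ d) g)) :
    (varIdeal A₀ x).map j = (maximalIdeal (PS κ d)).map (algebraMap (PS κ d) A) := by
  rw [varIdeal, maximalIdeal_mvPowerSeries, Ideal.map_span, Ideal.map_span, ← Set.range_comp,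
    ← Set.range_comp]
  congr 2
  funext i
  simp only [Function.comp_apply, hj, hx]

omit [Module.Finite G A₀] in
include hx ho in
/-- The local structure of an algebra receiving the model. -/
theorem local_facts {A : Type u} [CommRing A] [Nontrivial A] [Algebra (PS κ d) A]
    [Module.Finite (PS κ d) A] (j : A₀ →+* A)
    (hj : ∀ g, j (algebraMap G A₀ g) = algebraMap (PS κ d) A (algebraMap G (PS κ d) g))
    (hzA : Submodule.span (PS κ d) (Set.range fun i => j (z i)) = ⊤)
    (hred : genIdeal x z o ^ (r + 1) ≤ varIdeal A₀ x * genIdeal x z o ^ r) :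
    ∃ _ : IsLocalRing A, IsLocalHom (algebraMap (PS κ d) A) ∧
      maximalIdeal A = (genIdeal x z o).map j ∧
      (∀ a, ∃ s : PS κ d, a - algebraMap (PS κ d) A s ∈ maximalIdeal A) ∧
      ∀ N, maximalIdeal A ^ (N + r) ≤
        Ideal.span (Set.range fun i => algebraMap (PS κ d) A (MvPowerSeries.X i)) ^ N := by
  have hmv := map_varIdeal hx j hj
  obtain ⟨hloc, hhom, hmax, hres⟩ := isLocalRing_of_span (R := PS κ d) (fun i => j (z i)) hzA o
    (by rw [ho, map_one]) fun i hi => ⟨r + 1, by
      rw [← hmv, ← map_pow]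
      have h : z i ∈ genIdeal x z o := ?_
      exact Ideal.mem_map_of_mem _ (Ideal.mul_le_left (hred (Ideal.pow_mem_pow h _)))
      exact Ideal.mem_sup_right (Ideal.subset_span ⟨i, hi, rfl⟩)⟩
  have hmax' : maximalIdeal A = (genIdeal x z o).map j := by
    rw [hmax, genIdeal, Ideal.map_sup, hmv, Ideal.map_span, ← Set.image_comp]
    rfl
  refine ⟨hloc, hhom, hmax', hres, ?_⟩
  set J := Ideal.span (Set.range fun i => algebraMap (PS κ d) A (MvPowerSeries.X i))
  have hJ : J = (varIdeal A₀ x).map j := by
    rw [hmv, maximalIdeal_mvPowerSeries, Ideal.map_span, ← Set.range_comp]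
    rfl
  intro N
  suffices h : maximalIdeal A ^ (N + r) ≤ J ^ N * maximalIdeal A ^ r from
    h.trans Ideal.mul_le_left
  induction N with
  | zero => simp
  | succ N ih =>
    calc maximalIdeal A ^ (N + 1 + r) = maximalIdeal A * maximalIdeal A ^ (N + r) := by
          rw [← pow_succ']; ring_nf
      _ ≤ maximalIdeal A * (J ^ N * maximalIdeal A ^ r) := Ideal.mul_mono_right ih
      _ = J ^ N * maximalIdeal A ^ (r + 1) := by ring
      _ ≤ J ^ N * (J * maximalIdeal A ^ r) := by
          refine Ideal.mul_mono_right ?_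
          rw [hmax', hJ, ← Ideal.map_pow, ← Ideal.map_pow, ← Ideal.map_mul]
          exact Ideal.map_mono hred
      _ = J ^ (N + 1) * maximalIdeal A ^ r := by ring

/-- Facts about a finite local algebra over power series with finite residue field. -/
theorem finite_field_facts {A : Type u} [CommRing A] [IsLocalRing A] [Algebra (PS κ d) A]
    [Module.Finite (PS κ d) A] [IsLocalHom (algebraMap (PS κ d) A)] [Algebra κ A]
    [IsScalarTower κ (PS κ d) A]
    (hres : ∀ a, ∃ s : PS κ d, a - algebraMap (PS κ d) A s ∈ maximalIdeal A) :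
    (∀ a, ∃ q : κ, a - algebraMap κ A q ∈ maximalIdeal A) ∧ CharP A p ∧
      PerfectField (ResidueField A) ∧ IsAdicComplete (maximalIdeal A) A := by
  have hresκ : ∀ a, ∃ q : κ, a - algebraMap κ A q ∈ maximalIdeal A := by
    intro a
    obtain ⟨s, hs⟩ := hres a
    refine ⟨MvPowerSeries.constantCoeff s, ?_⟩
    have h : s - MvPowerSeries.C (MvPowerSeries.constantCoeff s) ∈ maximalIdeal (PS κ d) := by
      rw [mem_maximalIdeal, mem_nonunits_iff, MvPowerSeries.isUnit_iff_constantCoeff]
      simp
    have h' : algebraMap (PS κ d) A (s - MvPowerSeries.C (MvPowerSeries.constantCoeff s)) ∈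
        maximalIdeal A := by
      rw [mem_maximalIdeal, mem_nonunits_iff]
      exact fun hu => h ((isUnit_map_iff (algebraMap (PS κ d) A) _).1 hu)
    rw [map_sub] at h'
    have h2 := add_mem hs h'
    rw [sub_add_sub_cancel] at h2
    rwa [IsScalarTower.algebraMap_apply κ (PS κ d) A, MvPowerSeries.algebraMap_apply]
  refine ⟨hresκ, charP_of_injective_ringHom (algebraMap κ A).injective p, ?_, ?_⟩
  · have hs : Function.Surjective ((residue A).comp (algebraMap κ A)) := fun q => by
      obtain ⟨a, rfl⟩ := residue_surjective q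
      obtain ⟨c', hc'⟩ := hresκ a
      refine ⟨c', ?_⟩
      rw [RingHom.comp_apply, eq_comm, ← sub_eq_zero, ← map_sub, residue_eq_zero_iff]
      exact hc'
    have : Finite (ResidueField A) := Finite.of_surjective _ hs
    infer_instance
  · have : IsAdicComplete (maximalIdeal (PS κ d)) (PS κ d) := by
      rw [maximalIdeal_mvPowerSeries]; infer_instance
    exact isAdicComplete_maximalIdeal_of_finite (PS κ d) A

variable (hred : genIdeal x z o ^ (r + 1) ≤ varIdeal A₀ x * genIdeal x z o ^ r) (he : 0 < e)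

include hx hz ho hc hv hred he in
/-- The source after base change. -/
theorem source_facts :
    ∃ _ : IsLocalRing (PS κ d ⊗[G] A₀),
      IsLocalHom (algebraMap (PS κ d) (PS κ d ⊗[G] A₀)) ∧
      maximalIdeal (PS κ d ⊗[G] A₀) =
        (genIdeal x z o).map
          (Algebra.TensorProduct.includeRight (R := G) (A := PS κ d) (B := A₀)).toRingHom ∧
      (∀ a, ∃ q : κ, a - algebraMap κ (PS κ d ⊗[G] A₀) q ∈ maximalIdeal (PS κ d ⊗[G] A₀)) ∧
      CharP (PS κ d ⊗[G] A₀) p ∧ PerfectField (ResidueField (PS κ d ⊗[G] A₀)) ∧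
      IsAdicComplete (maximalIdeal (PS κ d ⊗[G] A₀)) (PS κ d ⊗[G] A₀) ∧
      dimNat (PS κ d ⊗[G] A₀) = d ∧
      (e : ℝ≥0∞) ≤ limsup (hsSeq (PS κ d ⊗[G] A₀)) atTop := by
  classical
  have hli := linearIndependent_includeRight hc Θ v hv
  have : Nontrivial (PS κ d ⊗[G] A₀) := nontrivial_of_ne _ _ (hli.ne_zero ⟨0, he⟩)
  let j : A₀ →+* PS κ d ⊗[G] A₀ :=
    (Algebra.TensorProduct.includeRight (R := G) (A := PS κ d) (B := A₀)).toRingHom
  obtain ⟨hloc, hhom, hmax, hres, hpow⟩ := local_facts (r := r) hx ho j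
    (fun g => (AlgHom.commutes _ g).trans
      (IsScalarTower.algebraMap_apply G (PS κ d) (PS κ d ⊗[G] A₀) g))
    (span_includeRight hz) hred
  have hnoeth : IsNoetherianRing (PS κ d ⊗[G] A₀) := IsNoetherianRing.of_finite (PS κ d) _
  obtain ⟨hresκ, hchar, hperf, hcomp⟩ := finite_field_facts (p := p) hres
  have hinj : Function.Injective (algebraMap (PS κ d) (PS κ d ⊗[G] A₀)) :=
    (injective_iff_map_eq_zero _).2 fun s hs => by
      have h : s • ((1 : PS κ d) ⊗ₜ[G] v ⟨0, he⟩) = (0 : PS κ d ⊗[G] A₀) :=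
        (Algebra.smul_def (A := PS κ d ⊗[G] A₀) s _).trans (by rw [hs, zero_mul])
      have := Fintype.linearIndependent_iff.1 hli (Pi.single ⟨0, he⟩ s) (by
        simpa [Pi.single_apply, ite_smul] using h) ⟨0, he⟩
      simpa using this
  have hd : dimNat (PS κ d ⊗[G] A₀) = d := dimNat_eq_of_finite_injective hinj
  obtain ⟨e', he', hle⟩ := NC.emult_le_liminf_hsSeq hresκ hd (algebraMap (PS κ d) _)
    (RingHom.finite_algebraMap.2 inferInstance)
    (fun q => by
      rw [IsScalarTower.algebraMap_apply κ (PS κ d), MvPowerSeries.algebraMap_apply]; rfl)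
    hpow
  rw [emult_eq_finrank_powerSeries, Nat.cast_inj] at he'
  have hee : e ≤ e' := by
    rw [← he']
    simpa using hli.fintype_card_le_finrank
  exact ⟨hloc, hhom, hmax, hresκ, hchar, hperf, hcomp, hd,
    ((Nat.cast_le.2 hee).trans hle).trans liminf_le_limsup⟩

end Vale.Agent.P202.Zero
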