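import Vale.Agent.P202.Zero.Descent.Model

/-!
# P202, equal characteristic zero: the target of a model and its colength
-/

noncomputable section

namespace Vale.Agent.P202.Zero

open IsLocalRing TensorProduct
open scoped Pointwise

universe u

variable {κ : Type u} [Field κ] {d : ℕ}

/-- A colength from finitely many elements stable under the variables modulo the ideal. -/
theorem colength_le {B : Type u} [CommRing B] [Algebra (PS κ d) B] [Algebra κ B]
    [IsScalarTower κ (PS κ d) B] {ι : Type*} (g : ι → B)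
    (hg : Submodule.span (PS κ d) (Set.range g) = ⊤) (I : Ideal B) {M : ℕ}
    (hM : (maximalIdeal (PS κ d) ^ M).map (algebraMap (PS κ d) B) ≤ I) {ℓ : ℕ} (u : Fin ℓ → B)
    (hgu : ∀ i, g i ∈ Submodule.span κ (Set.range u) ⊔ I.restrictScalars κ)
    (hxu : ∀ q t, algebraMap (PS κ d) B (MvPowerSeries.X q) * u t ∈
      Submodule.span κ (Set.range u) ⊔ I.restrictScalars κ) :
    Module.Finite κ (B ⧸ I) ∧ Module.finrank κ (B ⧸ I) ≤ ℓ := by
  set W : Submodule κ B := Submodule.span κ (Set.range u) ⊔ I.restrictScalars κ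
  have hWI : ∀ a ∈ I, a ∈ W := fun a ha => Submodule.mem_sup_right ha
  let S : Subring (PS κ d) :=
    { carrier := {f | ∀ w ∈ W, f • w ∈ W}
      mul_mem' := fun {a b} ha hb w hw => by rw [mul_smul]; exact ha _ (hb w hw)
      one_mem' := fun w hw => by rwa [one_smul]
      add_mem' := fun {a b} ha hb w hw => by rw [add_smul]; exact add_mem (ha w hw) (hb w hw)
      zero_mem' := fun w _ => by rw [zero_smul]; exact zero_mem _
      neg_mem' := fun {a} ha w hw => by rw [neg_smul]; exact neg_mem (ha w hw) }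
  have hC : ∀ c : κ, MvPowerSeries.C c ∈ S := fun c w hw => by
    rw [show (MvPowerSeries.C c : PS κ d) = algebraMap κ (PS κ d) c by
      rw [MvPowerSeries.algebraMap_apply]; rfl, algebraMap_smul]
    exact W.smul_mem c hw
  have hX : ∀ q, MvPowerSeries.X q ∈ S := fun q w hw => by
    obtain ⟨a, ha, b, hb, rfl⟩ := Submodule.mem_sup.1 hw
    rw [smul_add]
    refine add_mem ?_ (hWI _ ?_)
    · clear hw
      induction ha using Submodule.span_induction with
      | mem x hx =>
        obtain ⟨t, rfl⟩ := hx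
        rw [Algebra.smul_def]
        exact hxu q t
      | zero => rw [smul_zero]; exact zero_mem _
      | add x y _ _ hx hy => rw [smul_add]; exact add_mem hx hy
      | smul c x _ hx => rw [smul_comm]; exact W.smul_mem c hx
    · rw [Algebra.smul_def]; exact I.mul_mem_left _ hb
  have happrox : ∀ j : ℕ, ∀ f : PS κ d, ∃ p ∈ S, f - p ∈ maximalIdeal (PS κ d) ^ j := by
    intro j
    induction j with
    | zero => exact fun f => ⟨0, zero_mem S, by simp⟩
    | succ j ih =>
      intro f
      obtain ⟨a, ha⟩ := Ideal.mem_span_range_iff_exists_fun.1 (sub_C_constantCoeff_mem_span_X f)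
      choose p hpS hp using fun q => ih (a q)
      refine ⟨MvPowerSeries.C (MvPowerSeries.constantCoeff f) + ∑ q, p q * MvPowerSeries.X q,
        add_mem (hC _) (sum_mem fun q _ => mul_mem (hpS q) (hX q)), ?_⟩
      rw [show f - (MvPowerSeries.C (MvPowerSeries.constantCoeff f) +
          ∑ q, p q * MvPowerSeries.X q) = ∑ q, (a q - p q) * MvPowerSeries.X q by
        rw [← sub_sub, ← ha, ← Finset.sum_sub_distrib]
        simp only [sub_mul]]
      refine sum_mem fun q _ => ?_
      rw [pow_succ]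
      exact Ideal.mul_mem_mul (hp q) (by
        rw [maximalIdeal_mvPowerSeries]; exact Ideal.subset_span ⟨q, rfl⟩)
  have hS : ∀ f : PS κ d, ∀ w ∈ W, f • w ∈ W := by
    intro f w hw
    obtain ⟨p, hpS, hp⟩ := happrox M f
    rw [show f = (f - p) + p by ring, add_smul]
    refine add_mem (hWI _ ?_) (hpS w hw)
    rw [Algebra.smul_def]
    exact I.mul_mem_right _ (hM (Ideal.mem_map_of_mem _ hp))
  have htop : ∀ a : B, a ∈ W := by
    intro a
    have ha : a ∈ Submodule.span (PS κ d) (Set.range g) := hg ▸ Submodule.mem_top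
    induction ha using Submodule.span_induction with
    | mem x hx => obtain ⟨i, rfl⟩ := hx; exact hgu i
    | zero => exact zero_mem _
    | add x y _ _ hx hy => exact add_mem hx hy
    | smul f x _ hx => exact hS f x hx
  let π : B →ₗ[κ] B ⧸ I := (Ideal.Quotient.mkₐ κ I).toLinearMap
  let F : (Fin ℓ → κ) →ₗ[κ] B ⧸ I := Fintype.linearCombination κ fun t => π (u t)
  have hF : Function.Surjective F := by
    intro q
    obtain ⟨a, rfl⟩ := Ideal.Quotient.mk_surjective q
    obtain ⟨s, hs, b, hb, rfl⟩ := Submodule.mem_sup.1 (htop a)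
    obtain ⟨c, rfl⟩ := (Submodule.mem_span_range_iff_exists_fun κ).1 hs
    refine ⟨c, ?_⟩
    have h0 : π b = 0 := Ideal.Quotient.eq_zero_iff_mem.2 hb
    show F c = π _
    rw [map_add, h0, add_zero, map_sum, Fintype.linearCombination_apply]
    simp only [map_smul]
  refine ⟨Module.Finite.of_surjective F hF, ?_⟩
  have h := LinearMap.finrank_le_finrank_of_surjective hF
  rwa [Module.finrank_pi, Fintype.card_fin] at h

variable {G : Type u} [CommRing G] [Algebra G (PS κ d)]
  {x : Fin d → G} (hx : ∀ i, algebraMap G (PS κ d) (x i) = MvPowerSeries.X i)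
  {A₀ : Type u} [CommRing A₀] [Algebra G A₀] {σ : Type*} {z : σ → A₀} {o : σ}
  {A : Type u} [CommRing A] [IsLocalRing A] [Algebra (PS κ d) A] [Module.Finite (PS κ d) A]
  [IsLocalHom (algebraMap (PS κ d) A)]
  [Algebra κ A] [IsScalarTower κ (PS κ d) A] [Algebra A₀ A]
  (hj : ∀ g, algebraMap A₀ A (algebraMap G A₀ g) =
    algebraMap (PS κ d) A (algebraMap G (PS κ d) g))
  (hzA : Submodule.span (PS κ d) (Set.range fun i => algebraMap A₀ A (z i)) = ⊤)
  (hmax : maximalIdeal A = (genIdeal x z o).map (algebraMap A₀ A))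
  (hresA : ∀ a, ∃ q : κ, a - algebraMap κ A q ∈ maximalIdeal A)
  [IsAdicComplete (maximalIdeal A) A]
  {B₀ : Type u} [CommRing B₀] [Algebra A₀ B₀] {s : ℕ} (b : Module.Basis (Fin s) A₀ B₀) {o' : Fin s}
  (hb : b o' = 1)
  (hbt : ∀ j, j ≠ o' → ∃ t : ℕ, b j ^ t ∈ (genIdeal x z o).map (algebraMap A₀ B₀))
  (y : Fin d → B₀)
  (hy : ∀ l, y l ∈ (genIdeal x z o).map (algebraMap A₀ B₀) ⊔ Ideal.span (b '' {o'}ᶜ))
  {N M ℓ : ℕ}
  (hM : (varIdeal A₀ x ^ M).map (algebraMap A₀ B₀) ≤ Ideal.span (Set.range fun l => y l ^ N))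
  (u : Fin ℓ → B₀) {C : Set G}
  (hC : ∀ g ∈ C, ∃ a : κ, algebraMap G (PS κ d) g - MvPowerSeries.C a ∈ maximalIdeal (PS κ d) ^ M)
  (hgu : ∀ i j, ∃ c : Fin ℓ → G, (∀ t, c t ∈ C) ∧ algebraMap A₀ B₀ (z i) * b j -
    ∑ t, algebraMap A₀ B₀ (algebraMap G A₀ (c t)) * u t ∈ Ideal.span (Set.range fun l => y l ^ N))
  (hxu : ∀ q r, ∃ c : Fin ℓ → G, (∀ t, c t ∈ C) ∧ algebraMap A₀ B₀ (algebraMap G A₀ (x q)) * u r -
    ∑ t, algebraMap A₀ B₀ (algebraMap G A₀ (c t)) * u t ∈ Ideal.span (Set.range fun l => y l ^ N))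

section Abs

variable {B : Type u} [CommRing B] [Algebra A B] [Algebra (PS κ d) B] [Algebra κ B]
  [IsScalarTower (PS κ d) A B] [IsScalarTower κ A B] (j : B₀ →+* B)
  (hjA : ∀ a, j (algebraMap A₀ B₀ a) = algebraMap A B (algebraMap A₀ A a))
  (bA : Module.Basis (Fin s) A B) (hbA : ∀ i, bA i = j (b i))

include hx hj hzA hmax hresA hb hbt hy hM hC hgu hxu hjA hbA in
/-- The target after base change, for any free algebra receiving the model. -/
theorem target_facts_aux :
    ∃ _ : IsLocalRing B, IsLocalHom (algebraMap A B) ∧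
      IsNoetherianRing B ∧ Module.Finite A B ∧ Module.Flat A B ∧
      IsAdicComplete (maximalIdeal B) B ∧
      (∀ a, ∃ q : κ, a - algebraMap κ B q ∈ maximalIdeal B) ∧
      dimNat B = dimNat A ∧
      (∀ l, j (y l) ∈ maximalIdeal B) ∧
      Module.Finite κ (B ⧸ Ideal.span (Set.range fun l => j (y l) ^ N)) ∧
      Module.finrank κ (B ⧸ Ideal.span (Set.range fun l => j (y l) ^ N)) ≤ ℓ := by
  classical
  have : IsNoetherianRing A := IsNoetherianRing.of_finite (PS κ d) A
  have hfree : Module.Free A B := Module.Free.of_basis bA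
  have hfin : Module.Finite A B := Module.Finite.of_basis bA
  have : Nontrivial B := nontrivial_of_ne _ _ (bA.ne_zero o')
  have hgen : ((genIdeal x z o).map (algebraMap A₀ B₀)).map j =
      (maximalIdeal A).map (algebraMap A B) := by
    rw [hmax, Ideal.map_map, Ideal.map_map]
    congr 1
    exact RingHom.ext hjA
  obtain ⟨hloc, hhom, hmaxB, hresB⟩ := isLocalRing_of_span (R := A) (fun i => bA i)
    (bA.span_eq) o' (by rw [hbA, hb, map_one]) fun i hi => by
      obtain ⟨t, ht⟩ := hbt i hi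
      exact ⟨t, by rw [hbA, ← map_pow, ← hgen]; exact Ideal.mem_map_of_mem _ ht⟩
  have hNoeth : IsNoetherianRing B := IsNoetherianRing.of_finite A _
  have hres : ∀ a, ∃ q : κ, a - algebraMap κ B q ∈ maximalIdeal B := by
    intro a
    obtain ⟨r, hr⟩ := hresB a
    obtain ⟨q, hq⟩ := hresA r
    refine ⟨q, ?_⟩
    have h : algebraMap A B (r - algebraMap κ A q) ∈ maximalIdeal B :=
      hmaxB ▸ Ideal.mem_sup_left (Ideal.mem_map_of_mem _ hq)
    rw [map_sub, ← IsScalarTower.algebraMap_apply κ A B] at h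
    simpa only [sub_add_sub_cancel] using add_mem hr h
  have hcomp : IsAdicComplete (maximalIdeal B) B :=
    isAdicComplete_maximalIdeal_of_finite A _
  have hflat : Module.Flat A B := inferInstance
  have hym : ∀ l, j (y l) ∈ maximalIdeal B := by
    intro l
    have h := Ideal.mem_map_of_mem j (hy l)
    rw [Ideal.map_sup, hgen, Ideal.map_span, ← Set.image_comp] at h
    rw [hmaxB]
    simpa only [hbA, Function.comp_def] using h
  set I := Ideal.span (Set.range fun l => j (y l) ^ N)
  have hI : (Ideal.span (Set.range fun l => y l ^ N)).map j = I := by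
    rw [Ideal.map_span, ← Set.range_comp]
    congr 2
    funext l
    exact map_pow j _ _
  have : IsScalarTower κ (PS κ d) B := IsScalarTower.of_algebraMap_eq fun q => by
    rw [IsScalarTower.algebraMap_apply κ A B,
      IsScalarTower.algebraMap_apply κ (PS κ d) A,
      ← IsScalarTower.algebraMap_apply (PS κ d) A B]
  have hG : ∀ g, j (algebraMap A₀ B₀ (algebraMap G A₀ g)) =
      algebraMap (PS κ d) B (algebraMap G (PS κ d) g) := fun g => by
    rw [hjA, hj, ← IsScalarTower.algebraMap_apply]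
  have hMI : (maximalIdeal (PS κ d) ^ M).map (algebraMap (PS κ d) B) ≤ I := by
    refine le_trans (le_of_eq ?_) ((Ideal.map_mono (f := j) hM).trans hI.le)
    rw [varIdeal, Ideal.map_pow, Ideal.map_pow, Ideal.map_pow, maximalIdeal_mvPowerSeries,
      Ideal.map_span, Ideal.map_span, Ideal.map_span, ← Set.range_comp, ← Set.range_comp,
      ← Set.range_comp]
    congr 3
    funext i
    simp only [Function.comp_apply, hG, hx]
  have hword : ∀ w : B₀, (∃ c : Fin ℓ → G, (∀ t, c t ∈ C) ∧
      w - ∑ t, algebraMap A₀ B₀ (algebraMap G A₀ (c t)) * u t ∈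
        Ideal.span (Set.range fun l => y l ^ N)) →
      j w ∈ Submodule.span κ (Set.range fun t => j (u t)) ⊔ I.restrictScalars κ := by
    rintro w ⟨c, hc, hw⟩
    choose a ha using fun t => hC (c t) (hc t)
    refine Submodule.mem_sup.2 ⟨∑ t, a t • j (u t),
      sum_mem fun t _ => Submodule.smul_mem _ _ (Submodule.subset_span ⟨t, rfl⟩),
      j w - ∑ t, a t • j (u t), ?_, add_sub_cancel _ _⟩
    have h1 : j w - ∑ t, algebraMap (PS κ d) B (algebraMap G (PS κ d) (c t)) *
        j (u t) ∈ I := by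
      have h := Ideal.mem_map_of_mem j hw
      rw [hI, map_sub, map_sum] at h
      simpa only [map_mul, hG] using h
    rw [Submodule.restrictScalars_mem]
    rw [show j w - ∑ t, a t • j (u t) = (j w - ∑ t,
        algebraMap (PS κ d) B (algebraMap G (PS κ d) (c t)) * j (u t)) +
      ∑ t, algebraMap (PS κ d) B (algebraMap G (PS κ d) (c t) - MvPowerSeries.C (a t)) *
        j (u t) by
      simp only [map_sub, sub_mul, Finset.sum_sub_distrib]
      rw [sub_add_sub_cancel]
      congr 1
      refine Finset.sum_congr rfl fun t _ => ?_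
      rw [Algebra.smul_def, IsScalarTower.algebraMap_apply κ (PS κ d) B,
        MvPowerSeries.algebraMap_apply]
      rfl]
    exact add_mem h1 (sum_mem fun t _ => I.mul_mem_right _ (hMI (Ideal.mem_map_of_mem _ (ha t))))
  obtain ⟨hQ, hQle⟩ := colength_le (κ := κ) (fun p : σ × Fin s => algebraMap A₀ A (z p.1) • bA p.2)
    (by
      rw [show (Set.range fun p : σ × Fin s => algebraMap A₀ A (z p.1) • bA p.2) =
          (Set.range fun i => algebraMap A₀ A (z i)) • Set.range bA by
        ext w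
        simp [Set.mem_smul], Submodule.span_smul_of_span_eq_top hzA, bA.span_eq,
        Submodule.restrictScalars_top])
    I hMI (fun t => j (u t))
    (fun p => by
      have h := hword _ (hgu p.1 p.2)
      rwa [map_mul, hjA, ← Algebra.smul_def, ← hbA] at h)
    (fun q r => by
      have h := hword _ (hxu q r)
      rwa [map_mul, hG, hx] at h)
  exact ⟨hloc, hhom, hNoeth, hfin, hflat, hcomp, hres, dimNat_eq_of_finite_flat, hym, hQ, hQle⟩

end Abs

include hx hj hzA hmax hresA hb hbt hy hM hC hgu hxu in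
/-- The target after base change. -/
theorem target_facts :
    ∃ _ : IsLocalRing (A ⊗[A₀] B₀), IsLocalHom (algebraMap A (A ⊗[A₀] B₀)) ∧
      IsNoetherianRing (A ⊗[A₀] B₀) ∧ Module.Finite A (A ⊗[A₀] B₀) ∧
      Module.Flat A (A ⊗[A₀] B₀) ∧
      IsAdicComplete (maximalIdeal (A ⊗[A₀] B₀)) (A ⊗[A₀] B₀) ∧
      (∀ a, ∃ q : κ, a - algebraMap κ (A ⊗[A₀] B₀) q ∈ maximalIdeal (A ⊗[A₀] B₀)) ∧
      dimNat (A ⊗[A₀] B₀) = dimNat A ∧
      (∀ l, (1 : A) ⊗ₜ[A₀] y l ∈ maximalIdeal (A ⊗[A₀] B₀)) ∧
      Module.Finite κ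
        ((A ⊗[A₀] B₀) ⧸ Ideal.span (Set.range fun l => ((1 : A) ⊗ₜ[A₀] y l) ^ N)) ∧
      Module.finrank κ
        ((A ⊗[A₀] B₀) ⧸ Ideal.span (Set.range fun l => ((1 : A) ⊗ₜ[A₀] y l) ^ N)) ≤ ℓ :=
  target_facts_aux hx hj hzA hmax hresA b hb hbt y hy hM u hC hgu hxu
    (Algebra.TensorProduct.includeRight (R := A₀) (A := A) (B := B₀)).toRingHom
    (fun a => (AlgHom.commutes _ a).trans (IsScalarTower.algebraMap_apply A₀ A (A ⊗[A₀] B₀) a))
    (Algebra.TensorProduct.basis A b) (fun i => Algebra.TensorProduct.basis_apply b i)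

end Vale.Agent.P202.Zero
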