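import Vale.Agent.P202.NC.Dual
import Vale.Agent.P202.Reduce.CutDim

/-!
# P202, equal characteristic zero: finite algebras over power series

Local rings from spanning families, and dimensions of finite injective extensions of power series.
-/

noncomputable section

namespace Vale.Agent.P202.Zero

open IsLocalRing

universe u

/-- A finite nontrivial algebra spanned by `1` and elements nilpotent modulo the maximal ideal of
the base is local. -/
theorem isLocalRing_of_span {R S : Type*} [CommRing R] [IsLocalRing R] [CommRing S] [Nontrivial S]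
    [Algebra R S] [Module.Finite R S] {ι : Type*} (z : ι → S)
    (hz : Submodule.span R (Set.range z) = ⊤) (o : ι) (ho : z o = 1)
    (ht : ∀ i, i ≠ o → ∃ t : ℕ, z i ^ t ∈ (maximalIdeal R).map (algebraMap R S)) :
    ∃ _ : IsLocalRing S, IsLocalHom (algebraMap R S) ∧
      maximalIdeal S = (maximalIdeal R).map (algebraMap R S) ⊔ Ideal.span (z '' {o}ᶜ) ∧
      ∀ a : S, ∃ r : R, a - algebraMap R S r ∈ maximalIdeal S := by
  set I := (maximalIdeal R).map (algebraMap R S) ⊔ Ideal.span (z '' {o}ᶜ)
  have hres : ∀ a : S, ∃ r : R, a - algebraMap R S r ∈ I := by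
    intro a
    have ha : a ∈ Submodule.span R (Set.range z) := hz ▸ Submodule.mem_top
    induction ha using Submodule.span_induction with
    | mem x hx =>
      obtain ⟨i, rfl⟩ := hx
      by_cases hi : i = o
      · exact ⟨1, by simp [hi, ho]⟩
      · exact ⟨0, by
          rw [map_zero, sub_zero]
          exact le_sup_right (a := (maximalIdeal R).map (algebraMap R S))
            (Ideal.subset_span ⟨i, hi, rfl⟩)⟩
    | zero => exact ⟨0, by simp⟩
    | add x y _ _ hx hy =>
      obtain ⟨r, hr⟩ := hx
      obtain ⟨r', hr'⟩ := hy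
      refine ⟨r + r', ?_⟩
      rw [map_add, add_sub_add_comm]
      exact add_mem hr hr'
    | smul c x _ hx =>
      obtain ⟨r, hr⟩ := hx
      refine ⟨c * r, ?_⟩
      rw [Algebra.smul_def, map_mul, ← mul_sub]
      exact Ideal.mul_mem_left _ _ hr
  have hunder : ∀ M : Ideal S, M.IsMaximal → M.comap (algebraMap R S) = maximalIdeal R := by
    intro M hM
    exact eq_maximalIdeal (Ideal.isMaximal_comap_of_isIntegral_of_isMaximal M)
  have hle : ∀ M : Ideal S, M.IsMaximal → I ≤ M := by
    intro M hM
    have hm : (maximalIdeal R).map (algebraMap R S) ≤ M :=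
      Ideal.map_le_iff_le_comap.2 (hunder M hM).ge
    refine sup_le hm (Ideal.span_le.2 ?_)
    rintro _ ⟨i, hi, rfl⟩
    obtain ⟨t, ht⟩ := ht i hi
    exact hM.isPrime.mem_of_pow_mem t (hm ht)
  have heq : ∀ M : Ideal S, M.IsMaximal → M = I := by
    intro M hM
    refine le_antisymm (fun a ha => ?_) (hle M hM)
    obtain ⟨r, hr⟩ := hres a
    have hrM : algebraMap R S r ∈ M := by
      have h := M.sub_mem ha (hle M hM hr)
      rwa [sub_sub_cancel] at h
    have : r ∈ maximalIdeal R := hunder M hM ▸ hrM
    have h := I.add_mem hr (le_sup_left (b := Ideal.span (z '' {o}ᶜ))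
      (Ideal.mem_map_of_mem (algebraMap R S) this))
    rwa [sub_add_cancel] at h
  obtain ⟨M, hM⟩ := Ideal.exists_maximal S
  have hloc : IsLocalRing S :=
    IsLocalRing.of_unique_max_ideal ⟨M, hM, fun J hJ => (heq J hJ).trans (heq M hM).symm⟩
  have hmax : maximalIdeal S = I := heq _ inferInstance
  refine ⟨hloc, ?_, hmax, fun a => hmax ▸ hres a⟩
  exact ((IsLocalRing.local_hom_TFAE (algebraMap R S)).out 0 2).2 (le_sup_left.trans_eq hmax.symm)

section Dim

variable {k : Type u} [Field k]

/-- Power series in `d` variables have dimension at least `d`. -/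
theorem le_ringKrullDim_mvPowerSeries (d : ℕ) :
    (d : WithBot ℕ∞) ≤ ringKrullDim (MvPowerSeries (Fin d) k) := by
  classical
  let a : ℕ → Fin d → MvPowerSeries (Fin d) k := fun j i =>
    if (i : ℕ) < j then 0 else MvPowerSeries.X i
  have ha : ∀ j, MvPowerSeries.HasSubst (a j) := fun j =>
    MvPowerSeries.hasSubst_of_constantCoeff_zero fun i => by
      simp only [a]
      split_ifs <;> simp
  let χ : ℕ → MvPowerSeries (Fin d) k →+* MvPowerSeries (Fin d) k := fun j =>
    (MvPowerSeries.substAlgHom (ha j)).toRingHom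
  have : IsDomain (MvPowerSeries (Fin d) k) := NoZeroDivisors.to_isDomain _
  let P : Fin (d + 1) → PrimeSpectrum (MvPowerSeries (Fin d) k) := fun j =>
    ⟨RingHom.ker (χ j), RingHom.ker_isPrime _⟩
  have hmono : StrictMono P := by
    refine Fin.strictMono_iff_lt_succ.2 fun j => ?_
    refine show (P j.castSucc).asIdeal < (P j.succ).asIdeal from
      SetLike.lt_iff_le_and_exists.2 ⟨fun f hf => ?_, MvPowerSeries.X j, ?_, ?_⟩
    · change MvPowerSeries.substAlgHom (ha _) f = 0 at hf
      change MvPowerSeries.substAlgHom (ha _) f = 0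
      have h := MvPowerSeries.substAlgHom_comp_substAlgHom_apply (ha j.castSucc) (ha j.succ) f
      rw [hf, map_zero] at h
      rw [MvPowerSeries.substAlgHom_apply] at h ⊢
      rw [h]
      congr 1
      funext i
      rw [show a j.castSucc i = if (i : ℕ) < j then 0 else MvPowerSeries.X i from rfl]
      split_ifs with h1
      · rw [map_zero]
        exact if_pos (by simp only [Fin.val_succ]; omega)
      · rw [MvPowerSeries.substAlgHom_apply, MvPowerSeries.subst_X (ha _)]
    · change MvPowerSeries.substAlgHom (ha _) (MvPowerSeries.X j) = 0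
      rw [MvPowerSeries.substAlgHom_apply, MvPowerSeries.subst_X (ha _)]
      simp [a]
    · change ¬ MvPowerSeries.substAlgHom (ha _) (MvPowerSeries.X j) = 0
      rw [MvPowerSeries.substAlgHom_apply, MvPowerSeries.subst_X (ha _)]
      simp only [a, Fin.val_castSucc, lt_irrefl, if_false]
      intro h
      simpa [MvPowerSeries.coeff_X] using
        congrArg (MvPowerSeries.coeff (Finsupp.single j 1)) h
  exact Order.LTSeries.length_le_krullDim (LTSeries.mk d P hmono)

/-- A finite injective extension of power series in `d` variables has dimension `d`. -/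
theorem dimNat_eq_of_finite_injective {d : ℕ} {A : Type u} [CommRing A] [IsLocalRing A]
    [Algebra (MvPowerSeries (Fin d) k) A] [Module.Finite (MvPowerSeries (Fin d) k) A]
    (hinj : Function.Injective (algebraMap (MvPowerSeries (Fin d) k) A)) : dimNat A = d := by
  have : IsNoetherianRing A := IsNoetherianRing.of_finite (MvPowerSeries (Fin d) k) A
  have h1 : ringKrullDim A ≤ (d : WithBot ℕ∞) :=
    (ringKrullDim_le_of_isIntegral (algebraMap (MvPowerSeries (Fin d) k) A)
      (algebraMap_isIntegral_iff.2 inferInstance)).trans (ringKrullDim_mvPowerSeries_le d)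
  refine le_antisymm (dimNat_le h1) ?_
  have h2 : ringKrullDim (MvPowerSeries (Fin d) k) ≤ ringKrullDim A := by
    refine iSup_le fun l => ?_
    obtain ⟨P, -, hP, hPc⟩ := Ideal.exists_ideal_over_prime_of_isIntegral
      (S := A) l.head.asIdeal ⊥ (by simp [← RingHom.ker_eq_comap_bot,
        (RingHom.injective_iff_ker_eq_bot _).1 hinj])
    have : P.LiesOver l.head.asIdeal := ⟨hPc.symm⟩
    obtain ⟨L, hL, -, -⟩ := Ideal.exists_ltSeries_of_hasGoingUp l P
    rw [← hL]
    exact le_iSup (fun q : LTSeries (PrimeSpectrum A) => ((q.length : ℕ∞) : WithBot ℕ∞)) L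
  have h3 := (le_ringKrullDim_mvPowerSeries (k := k) d).trans h2
  rw [coe_dimNat A] at h3
  exact_mod_cast h3

end Dim

end Vale.Agent.P202.Zero
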